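import Vale.Agent.P262.H711.Sum3
import Vale.Agent.P262.H703.Rg2
import Vale.Agent.P262.H118.Lay

/-!
# P262, milestone 2, THR: 711's abstract family on `M2.Sys`

Nodes are paths, the child of `r` through the class `c` is `c :: r`, the weight of the child is
`cw (c :: r) m y`, the majorant of the quotient of the caps.
-/

set_option linter.all false

open MeasureTheory ProbabilityTheory Set
open scoped ENNReal RealInnerProductSpace
open Vale.Agent.P262.H118 (Iv st en ON rotE tau wd wrd Mg Piece K2 El2 paths)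
open Vale.Agent.P262.H395 (fib mix Inv inv_fib measurable_fib fib_mono)
open Vale.Agent.P262.H395.Tree (InvN)

namespace Vale.Agent.P262.M2.Sys

variable {E : Type*} [NormedAddCommGroup E] [InnerProductSpace ℝ E] [FiniteDimensional ℝ E]
  [MeasurableSpace E] [BorelSpace E] (S : Sys E)

/-! ### own coordinates -/

lemma ow_shift {r : List ℕ} {c m : ℕ} {w : E} (hw : w ∈ S.W r m) (y : E) :
    S.ow r c m (y + w) = S.ow r c m y := by
  unfold ow
  rw [map_add, map_add, Submodule.starProjection_eq_self_iff.2 (S.W_le c r m hw),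
    Submodule.starProjection_eq_self_iff.2 hw]
  abel

lemma ow_cont (r : List ℕ) (c m : ℕ) : Continuous (S.ow r c m) := by
  unfold ow
  fun_prop

/-! ### weight of a child -/

/-- own dimension of the child -/
noncomputable def od (r : List ℕ) (c m : ℕ) : ℕ :=
  Module.finrank ℝ (S.W (c :: r) m) - Module.finrank ℝ (S.W r m)

lemma od_eq (r : List ℕ) (c m : ℕ) : S.od r c m = S.K.kd (c :: r) (S.mv.tm m) := rfl

lemma one_le_od {r : List ℕ} {m : ℕ} (c : ℕ) (hm : S.mv.tm m < S.T) (h : ¬ S.Leaf r m) :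
    1 ≤ S.od r c m := S.K.one_le_kd hm (by unfold Leaf at h; unfold W at h; omega)

/-- **weight of a node**: majorant of the quotient of the powers `th` of the caps of the node and
of its parent -/
noncomputable def cw : List ℕ → ℕ → E → ℝ≥0∞
  | [], _, _ => 1
  | c :: r, m, y => ENNReal.ofReal ((S.kap ^ S.od r c m) ^ S.th *
      Real.exp (S.th / 8 * ‖S.ow r c m y‖ ^ 2))

lemma cw_cons (c : ℕ) (r : List ℕ) (m : ℕ) (y : E) : S.cw (c :: r) m y =
    ENNReal.ofReal ((S.kap ^ S.od r c m) ^ S.th * Real.exp (S.th / 8 * ‖S.ow r c m y‖ ^ 2)) := rfl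

lemma cw_meas (r : List ℕ) (m : ℕ) : Measurable (S.cw r m) := by
  cases r with
  | nil => exact measurable_const
  | cons c r =>
    have : Continuous fun y => (S.kap ^ S.od r c m) ^ S.th *
        Real.exp (S.th / 8 * ‖S.ow r c m y‖ ^ 2) := by
      have := S.ow_cont r c m
      fun_prop
    exact ENNReal.measurable_ofReal.comp this.measurable

lemma cw_add {r : List ℕ} {m : ℕ} (c : ℕ) {w : E} (hw : w ∈ S.W r m) (y : E) :
    S.cw (c :: r) m (y + w) = S.cw (c :: r) m y := by
  rw [cw_cons, cw_cons, S.ow_shift hw]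

lemma cw_ne_top (r : List ℕ) (m : ℕ) (y : E) : S.cw r m y ≠ ⊤ := by
  cases r with
  | nil => exact ENNReal.one_ne_top
  | cons c r => exact ENNReal.ofReal_ne_top

/-- the cap of the child, same vector -/
theorem As_child_le_cw (c : ℕ) (p : List ℕ) (m : ℕ) (y : E) :
    S.As S.th (c :: p) m y ≤ S.cw (c :: p) m y * S.As S.th p m y := by
  refine (S.A_child_le c p m S.hth.le y).trans (mul_le_mul' (le_of_eq ?_) le_rfl)
  rw [cw_cons]
  congr 1
  have hk : 0 < S.kap ^ (Module.finrank ℝ (S.W (c :: p) m) - Module.finrank ℝ (S.W p m)) :=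
    pow_pos S.hkap _
  rw [Real.mul_rpow hk.le (Real.exp_nonneg _), ← Real.exp_mul]
  unfold od
  congr 2
  ring

/-! ### the family -/

/-- **711's family** on the system, at the state `m` -/
noncomputable def fam (m : ℕ) : H711.Fam E (List ℕ) where
  ch := fun c r => c :: r
  L := fun r => S.Leaf r m
  W := fun r => S.W r m
  kl := fun r => S.kl r m
  wt := fun c r => S.cw (c :: r) m

theorem fam_str {m : ℕ} (hm : S.mv.tm m < S.T) (q : List ℕ) :
    (S.fam m).Str (fun r => q <:+ r) S.cm where
  ok_ch := fun r x hr _ => hr.trans (List.suffix_cons _ _)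
  kl_inv := fun r _ => kl_inv r hm
  kl_meas := fun r => measurable_kl r m
  kl_le := fun r x _ => kl_le_cm r m x
  wt_meas := fun c r => S.cw_meas (c :: r) m
  wt_add := fun c r _ y w hw => S.cw_add c hw y

/-- Harnack factor of the child `c :: r` -/
noncomputable def hn (c : ℕ) (r : List ℕ) (m : ℕ) (y : E) : ℝ≥0∞ :=
  ENNReal.ofReal (2 * Real.exp (9 + 8 / 15 * ‖S.ow r c m y‖ ^ 2))

lemma hn_meas (c : ℕ) (r : List ℕ) (m : ℕ) : Measurable (S.hn c r m) := by
  have : Continuous fun y => 2 * Real.exp (9 + 8 / 15 * ‖S.ow r c m y‖ ^ 2) := by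
    have := S.ow_cont r c m
    fun_prop
  exact ENNReal.measurable_ofReal.comp this.measurable

lemma hn_add {r : List ℕ} {m : ℕ} (c : ℕ) {w : E} (hw : w ∈ S.W r m) (y : E) :
    S.hn c r m (y + w) = S.hn c r m y := by
  unfold hn
  rw [S.ow_shift hw]

/-! ### transported layers -/

lemma mu_const_add {q r : List ℕ} (hqr : q <:+ r) {m : ℕ} {A : Set E} {e : E}
    (he : e ∈ S.W q m) (hA : ∀ y ∈ A, ∀ t : ℝ, y + t • e ∈ A) (x : E) (t : ℝ) :
    S.mu q A r m (x + t • e) = S.mu q A r m x := by
  refine le_antisymm ?_ ?_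
  · have h1 := mu_shift (S := S) hqr ((S.W q m).smul_mem (-t) he)
      (fun y hy => hA y hy (-t)) (x + t • e) (A := A) (B := A)
    rw [neg_smul, add_neg_cancel_right] at h1
    exact h1
  · exact mu_shift (S := S) hqr ((S.W q m).smul_mem t he) (fun y hy => hA y hy t) x

end Vale.Agent.P262.M2.Sys
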