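import Vale.Agent.P262.H148.PtS

/-!
# P262, milestone 2: the accounting at one point on `S`: inner moves, edges, entrances
-/

set_option linter.all false

open MeasureTheory ProbabilityTheory Set
open scoped ENNReal RealInnerProductSpace
open Vale.Agent.P262.H118 (Iv st en K2 El2 paths)

namespace Vale.Agent.P262.M2.Sys

variable {E : Type*} [NormedAddCommGroup E] [InnerProductSpace ℝ E] [FiniteDimensional ℝ E]
  [MeasurableSpace E] [BorelSpace E] {S : Sys E} {j : ℕ} {x : E}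

/-- inner moves -/
lemma inner_iff_p {m : ℕ} (hm : m < S.mT) :
    m < S.be (S.nd m x j) m x ↔ m + 1 ∉ S.BP j x := by
  have ht : S.mv.tm m < S.T := tm_lt_p hm.le
  have ht1 : S.mv.tm (m + 1) < S.T := tm_lt_p hm
  constructor
  · intro h h1
    have h2 : S.Same (S.BB (S.nd m x j) m x) m (m + 1) := same_succ ht h
    have h3 : S.Same (S.K.nw (S.nd m x j)) m (m + 1) :=
      h2.mono (nw_sub_BB _ _ _) (S.K.zero_mem_nw _) ht
    have h4 : S.bs (S.nd (m + 1) x j) (m + 1) x = m + 1 := h1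
    rw [nd_same_p ht h3, bs_same h2 ht] at h4
    have := bs_le (S := S) (S.nd m x j) m x
    omega
  · intro h
    obtain ⟨h1, h2⟩ := same_of_not_B (S := S) (j := j) (x := x) (m := m) hm h
    rw [h1, be_same h2 ht1]
    exact (Same.refl (S := S) (zero_mem_BB (S := S) _ _ _) ht1).2

/-- first states of blocks -/
lemma first_iff_p {m : ℕ} : S.bs (S.nd m x j) m x = m ↔ m ∈ S.BP j x := Iff.rfl

lemma be_le_mT_p (p : List ℕ) {m : ℕ} (hm : m ≤ S.mT) : S.be p m x ≤ S.mT := by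
  have h1 : S.be p m x < S.mv.n S.T := S.mv.eS_lt (tm_lt_p hm)
  unfold mT
  omega

/-- last states of blocks -/
lemma last_iff_p {m : ℕ} (hm : m ≤ S.mT) :
    S.be (S.nd m x j) m x = m ↔ (m + 1 ∈ S.BP j x ∨ m + 1 = S.mT + 1) := by
  have h1 := le_be (S := S) (S.nd m x j) x (tm_lt_p hm)
  have h2 := be_le_mT_p (S := S) (x := x) (S.nd m x j) hm
  rcases hm.eq_or_lt with h | h
  · subst h
    constructor
    · intro _; right; rfl
    · intro _; omega
  · have h3 := inner_iff_p (S := S) (j := j) (x := x) h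
    constructor
    · intro h4
      left
      by_contra h5
      have := h3.2 h5
      omega
    · rintro (h4 | h4)
      · by_contra h5
        exact (h3.1 (by omega)) h4
      · omega

/-- first states of lives -/
lemma life_first_iff_p {m : ℕ} : S.l0 (S.nd m x j) m = m ↔ m ∈ S.lvP j x := Iff.rfl

/-- admitted and counted = `NL ∩ OL ∩ om` -/
lemma act_om_iff_p {m : ℕ} : (S.actP j x m ∧ S.omP j x m) ↔
    x ∈ S.NL j m ∩ S.OL j m ∩ {x | x ∈ S.om (S.nd m x j) m} := by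
  unfold actP omP
  constructor
  · rintro ⟨⟨h1, h2, -⟩, h3⟩
    exact ⟨⟨h1, h2⟩, h3⟩
  · rintro ⟨⟨h1, h2⟩, h3⟩
    exact ⟨⟨h1, h2, h3.1⟩, h3⟩

lemma De_ne_top_p (p : List ℕ) (m : ℕ) (x : E) : S.De p m x ≠ ⊤ :=
  ne_top_of_le_ne_top ENNReal.one_ne_top (S.De_le_one _ _ _)
lemma q_ne_top_p (p : List ℕ) (m : ℕ) (x : E) : S.q p m x ≠ ⊤ :=
  ne_top_of_le_ne_top ENNReal.one_ne_top (S.q_le_one _ _ _)

lemma q_toReal_p (p : List ℕ) (m : ℕ) (x : E) :
    (S.q p m x).toReal = 1 - (S.De p m x).toReal := by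
  have h := S.De_add_q p m x
  have h1 := congrArg ENNReal.toReal h
  rw [ENNReal.toReal_add (De_ne_top_p p m x) (q_ne_top_p p m x)] at h1
  simp at h1
  linarith

lemma De_toReal_le_p (p : List ℕ) (m : ℕ) (x : E) : (S.De p m x).toReal ≤ 1 := by
  have := ENNReal.toReal_mono ENNReal.one_ne_top (S.De_le_one p m x)
  simpa using this

lemma As_toReal_p (p : List ℕ) (m : ℕ) (x : E) :
    (S.As S.th p m x).toReal = (S.A p m x).toReal ^ S.th := by
  rw [← S.A_rpow S.hth.le, ENNReal.toReal_rpow]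

/-- the entrance in real numbers -/
lemma ent_toReal_p (p : List ℕ) (m : ℕ) (x : E) :
    (S.ent p m x).toReal = (S.A p m x).toReal ^ S.th *
      min (max (S.A p m x).toReal (S.De p m x).toReal ^ (1 - S.th))
        (S.q p (S.l1 p m) x).toReal := by
  unfold ent
  have hmax : max (S.A p m x) (S.De p m x) ≠ ⊤ := by
    rcases max_choice (S.A p m x) (S.De p m x) with h | h
    · rw [h]; exact S.A_ne_top _ _ _
    · rw [h]; exact De_ne_top_p _ _ _
  have hth1 : 0 ≤ 1 - S.th := by linarith [S.hth1]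
  have hpow : max (S.A p m x) (S.De p m x) ^ (1 - S.th) ≠ ⊤ :=
    ENNReal.rpow_ne_top_of_nonneg hth1 hmax
  rw [ENNReal.toReal_mul, As_toReal_p, ENNReal.toReal_min hpow (q_ne_top_p _ _ _),
    ← ENNReal.toReal_rpow, ENNReal.toReal_max (S.A_ne_top _ _ _) (De_ne_top_p _ _ _)]

lemma ent_ne_top_p (p : List ℕ) (m : ℕ) (x : E) : S.ent p m x ≠ ⊤ := by
  unfold ent
  exact ENNReal.mul_ne_top (S.As_ne_top _ _ _ _)
    (ne_top_of_le_ne_top (q_ne_top_p p (S.l1 p m) x) (min_le_right _ _))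

/-- **the bracket of a life is paid by its entrance** -/
theorem bracket_p (hth1 : S.th ≤ 1 / 2) {s e : ℕ} (hiv : Iv (S.lvP j x) (S.mT + 1) s e)
    (ha : S.actP j x s) :
    H148.Psi S.th (S.AP j x s) (max (S.AP j x s) (S.DP j x s)) -
      H148.Psi S.th (S.AP j x s) (max (S.AP j x s) (S.DP j x (e - 1))) ≤
      20 * (S.ent (S.nd s x j) s x).toReal := by
  obtain ⟨hl, hle⟩ := life_p hiv
  have hse := hiv.2.1
  have hen := hiv.2.2.1
  set p := S.nd s x j with hp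
  have hA0 : 0 < S.AP j x s := ENNReal.toReal_pos (S.A_pos _ _ _).ne' (S.A_ne_top _ _ _)
  have hb0 : 0 ≤ S.b0 := S.hA0.le.trans S.hAb
  have hAb : S.AP j x s ≤ S.b0 := ENNReal.toReal_le_of_le_ofReal hb0 (S.A_le_of_not_Z ha.2.2)
  have hA8 : S.AP j x s ≤ 1 / 8 := by
    have h2 := S.hMb
    have h3 := S.hM
    nlinarith
  have hD1 : S.DP j x (e - 1) = 1 - (S.q p (S.l1 p s) x).toReal := by
    unfold DP
    rw [(hl (e - 1) (by omega) (by omega)).1, hle, q_toReal_p]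
    ring
  have hDs : S.DP j x s = (S.De p s x).toReal := rfl
  have hAs : S.AP j x s = (S.A p s x).toReal := rfl
  have hq0 : 0 ≤ (S.q p (S.l1 p s) x).toReal := ENNReal.toReal_nonneg
  have hq1 : (S.q p (S.l1 p s) x).toReal ≤ 1 := by
    rw [q_toReal_p]
    have : 0 ≤ (S.De p (S.l1 p s) x).toReal := ENNReal.toReal_nonneg
    linarith
  have hD0 : 0 ≤ S.DP j x s := ENNReal.toReal_nonneg
  have hD1' : S.DP j x s ≤ 1 := De_toReal_le_p _ _ _
  have key := H148.Psi_bracket (th := S.th) (A := S.AP j x s) (Ds := S.DP j x s)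
    (qe := (S.q p (S.l1 p s) x).toReal) S.hth.le (by linarith) hA0 hA8 hD0 hD1' hq0 hq1
  rw [hD1]
  refine key.trans ?_
  rw [ent_toReal_p, ← hAs, ← hDs]
  have hAth : 0 ≤ S.AP j x s ^ S.th := Real.rpow_nonneg hA0.le _
  have h1t : 0 ≤ 1 - S.th := by linarith
  have h2 : S.DP j x s ^ (1 - S.th) ≤ max (S.AP j x s) (S.DP j x s) ^ (1 - S.th) :=
    Real.rpow_le_rpow hD0 (le_max_right _ _) h1t
  have h3 : S.AP j x s ^ S.th * min (S.DP j x s ^ (1 - S.th)) (S.q p (S.l1 p s) x).toReal ≤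
      S.AP j x s ^ S.th * min (max (S.AP j x s) (S.DP j x s) ^ (1 - S.th))
        (S.q p (S.l1 p s) x).toReal :=
    mul_le_mul_of_nonneg_left (min_le_min h2 le_rfl) hAth
  have h4 : 10 / (1 - S.th) ≤ 20 := by
    rw [div_le_iff₀ (by linarith)]; linarith
  have h5 : 0 ≤ S.AP j x s ^ S.th * min (S.DP j x s ^ (1 - S.th)) (S.q p (S.l1 p s) x).toReal :=
    mul_nonneg hAth (le_min (Real.rpow_nonneg hD0 _) hq0)
  calc 10 / (1 - S.th) * (S.AP j x s ^ S.th *
        min (S.DP j x s ^ (1 - S.th)) (S.q p (S.l1 p s) x).toReal)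
      ≤ 20 * (S.AP j x s ^ S.th * min (S.DP j x s ^ (1 - S.th)) (S.q p (S.l1 p s) x).toReal) :=
        mul_le_mul_of_nonneg_right h4 h5
    _ ≤ _ := by linarith

open Classical in
/-- **(T1) at one point on `S`** -/
theorem star_pt' (hj : j ≤ Module.finrank ℝ E) (hth1 : S.th ≤ 1 / 2) {et : ℝ} (het0 : 0 ≤ et)
    (hM4 : 4 ≤ S.M) (het : 1 ≤ et * ((S.M / 4) ^ (1 - S.th) - 2)) {Q : ℕ → ℝ}
    (hC : ∀ m, m ≤ S.mT → S.actP j x m → |S.FP j x m - S.DP j x m| ≤ S.AP j x m / 4)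
    (hQ : ∀ m, m < S.mT → S.actP j x m → S.omP j x m → m < S.be (S.nd m x j) m x →
      |H148.Psi S.th (S.AP j x m) (S.FP j x (m + 1)) -
        H148.Psi S.th (S.AP j x m) (S.FP j x m)| ≤ Q m) :
    ∑ m ∈ Finset.range (S.mT + 1), H148.ac (S.actP j x) (H148.inn (S.BP j x) (S.mT + 1)
        (S.omP j x) fun m => if S.mv.IsStar m then H148.dPsi S.th (S.AP j x) (S.FP j x) m
          else - Q m) m ≤
      ∑ m ∈ Finset.range (S.mT + 1), H148.ac (S.actP j x)
        (H148.flf (S.lvP j x) fun m => 20 * (S.ent (S.nd m x j) m x).toReal) m +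
      (∑ m ∈ Finset.range (S.mT + 1), H148.ac (S.actP j x) (H148.ends (S.BP j x) (S.mT + 1)
        (S.omP j x) (H148.cvA S.th (S.AP j x) (S.DP j x)
          fun m => |S.FP j x m - S.DP j x m|)) m +
        et * ∑ m ∈ Finset.range (S.mT + 1), H148.ac (S.actP j x)
          (H148.inn (S.BP j x) (S.mT + 1) (S.omP j x) Q) m) := by
  have h4 : S.M / 2 / 2 = S.M / 4 := by ring
  refine (ptH' hj hC hQ).star_sum S.hth.le hth1 (by linarith) het0 (by rw [h4]; exact het)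
    fun s e hiv ha => bracket_p hth1 hiv ha

open Classical in
/-- **(T2) at one point on `S`** -/
theorem units_pt' (hj : j ≤ Module.finrank ℝ E) (hth1 : S.th ≤ 1 / 2) {et : ℝ} (het0 : 0 ≤ et)
    (hM4 : 4 ≤ S.M) (het : 1 ≤ et * ((S.M / 4) ^ (1 - S.th) - 2)) {Q : ℕ → ℝ}
    (hC : ∀ m, m ≤ S.mT → S.actP j x m → |S.FP j x m - S.DP j x m| ≤ S.AP j x m / 4)
    (hQ : ∀ m, m < S.mT → S.actP j x m → S.omP j x m → m < S.be (S.nd m x j) m x →
      |H148.Psi S.th (S.AP j x m) (S.FP j x (m + 1)) -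
        H148.Psi S.th (S.AP j x m) (S.FP j x m)| ≤ Q m)
    {K : ℝ} (hK : 0 ≤ K) {u : ℕ → ℝ}
    (hu : ∀ a, a ≤ S.mT → S.actP j x a → S.omP j x a → S.bs (S.nd a x j) a x = a →
      u a ≤ K * ∑ m ∈ Finset.Ico a (S.be (S.nd a x j) a x), Q m ∨
      (S.be (S.nd a x j) a x = S.l1 (S.nd a x j) a ∧
        u a ≤ K * (S.AP j x a ^ S.th * min ((max (S.AP j x a) (S.DP j x a)) ^ (1 - S.th))
          (S.q (S.nd a x j) (S.l1 (S.nd a x j) a) x).toReal) +
          K * ∑ m ∈ Finset.Ico a (S.be (S.nd a x j) a x), Q m)) :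
    ∑ m ∈ Finset.range (S.mT + 1), H148.ac (S.actP j x) (H148.fst (S.BP j x) (S.omP j x) u) m ≤
      K * ∑ m ∈ Finset.range (S.mT + 1), H148.ac (S.actP j x)
        (H148.flf (S.lvP j x) fun m => (S.ent (S.nd m x j) m x).toReal) m +
      K * (∑ m ∈ Finset.range (S.mT + 1), H148.ac (S.actP j x) (H148.ends (S.BP j x) (S.mT + 1)
        (S.omP j x) (H148.cvA S.th (S.AP j x) (S.DP j x)
          fun m => |S.FP j x m - S.DP j x m|)) m +
        (2 + et) * ∑ m ∈ Finset.range (S.mT + 1), H148.ac (S.actP j x)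
          (H148.inn (S.BP j x) (S.mT + 1) (S.omP j x) Q) m) := by
  have h4 : S.M / 2 / 2 = S.M / 4 := by ring
  have H := ptH' hj hC hQ
  refine H.units S.hth.le hth1 (by linarith) het0 (by rw [h4]; exact het) hK
    (q := fun s => (S.q (S.nd s x j) (S.l1 (S.nd s x j) s) x).toReal)
    (fun s _ => ENNReal.toReal_nonneg) ?_ ?_
  · intro s e hiv hact a b hab hsa hom
    obtain ⟨hl, hle⟩ := life_p hiv
    obtain ⟨hb1, hb2⟩ := block_p hiv hab hsa
    have hae : a < e := lt_of_lt_of_le hab.2.1 hab.2.2.1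
    have hen : e ≤ S.mT + 1 := hiv.2.2.1
    have hts : S.mv.tm s < S.T := tm_lt_p (by have := hiv.2.1; omega)
    have hpa : S.nd a x j = S.nd s x j := (hl a hsa hae).1
    have hsame : S.Same (S.K.nw (S.nd s x j)) s a := (hl a hsa hae).2
    have hacta : S.actP j x a := ((H.con hiv) a hsa hae).2.2 hact
    have hAa : S.AP j x a = S.AP j x s := ((H.con hiv) a hsa hae).1
    have hl1 : S.l1 (S.nd s x j) a = S.l1 (S.nd s x j) s :=
      (hsame.eq (S.K.zero_mem_nw _) hts).2.2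
    have h := hu a (by omega) hacta hom hab.1
    rw [hpa, hAa, hl1, ← hb2] at h
    rcases h with h | ⟨h1, h2⟩
    · exact Or.inl h
    · right
      refine ⟨?_, h2⟩
      have := hab.2.1
      have := hiv.2.1
      omega
  · intro s _ _ _
    rw [ent_toReal_p]
    exact le_rfl

open Classical in
/-- **(T1)**, slope at the mass before the move -/
theorem star_pt (hj : j ≤ Module.finrank ℝ E) (hth1 : S.th ≤ 1 / 2) {et : ℝ} (het0 : 0 ≤ et)
    (hM4 : 4 ≤ S.M) (het : 1 ≤ et * ((S.M / 4) ^ (1 - S.th) - 2)) {Q : ℕ → ℝ}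
    (hC : ∀ m, m ≤ S.mT → S.actP j x m → |S.FP j x m - S.DP j x m| ≤ S.AP j x m / 4)
    (hQ : ∀ m, m < S.mT → S.actP j x m → S.omP j x m → m < S.be (S.nd m x j) m x →
      2 * (H148.slope S.th (S.AP j x m) (S.FP j x m) * |S.FP j x (m + 1) - S.FP j x m|) ≤ Q m) :
    ∑ m ∈ Finset.range (S.mT + 1), H148.ac (S.actP j x) (H148.inn (S.BP j x) (S.mT + 1)
        (S.omP j x) fun m => if S.mv.IsStar m then H148.dPsi S.th (S.AP j x) (S.FP j x) m
          else - Q m) m ≤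
      ∑ m ∈ Finset.range (S.mT + 1), H148.ac (S.actP j x)
        (H148.flf (S.lvP j x) fun m => 20 * (S.ent (S.nd m x j) m x).toReal) m +
      (∑ m ∈ Finset.range (S.mT + 1), H148.ac (S.actP j x) (H148.ends (S.BP j x) (S.mT + 1)
        (S.omP j x) (H148.cvA S.th (S.AP j x) (S.DP j x)
          fun m => |S.FP j x m - S.DP j x m|)) m +
        et * ∑ m ∈ Finset.range (S.mT + 1), H148.ac (S.actP j x)
          (H148.inn (S.BP j x) (S.mT + 1) (S.omP j x) Q) m) :=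
  star_pt' hj hth1 het0 hM4 het hC fun m h1 h2 h3 h4 =>
    (H148.abs_Psi_le S.hth.le hth1 (AP_pos_p m) (AP_le_p h2)
      ENNReal.toReal_nonneg).trans (hQ m h1 h2 h3 h4)

open Classical in
/-- **(T2)**, slope at the mass before the move -/
theorem units_pt (hj : j ≤ Module.finrank ℝ E) (hth1 : S.th ≤ 1 / 2) {et : ℝ} (het0 : 0 ≤ et)
    (hM4 : 4 ≤ S.M) (het : 1 ≤ et * ((S.M / 4) ^ (1 - S.th) - 2)) {Q : ℕ → ℝ}
    (hC : ∀ m, m ≤ S.mT → S.actP j x m → |S.FP j x m - S.DP j x m| ≤ S.AP j x m / 4)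
    (hQ : ∀ m, m < S.mT → S.actP j x m → S.omP j x m → m < S.be (S.nd m x j) m x →
      2 * (H148.slope S.th (S.AP j x m) (S.FP j x m) * |S.FP j x (m + 1) - S.FP j x m|) ≤ Q m)
    {K : ℝ} (hK : 0 ≤ K) {u : ℕ → ℝ}
    (hu : ∀ a, a ≤ S.mT → S.actP j x a → S.omP j x a → S.bs (S.nd a x j) a x = a →
      u a ≤ K * ∑ m ∈ Finset.Ico a (S.be (S.nd a x j) a x), Q m ∨
      (S.be (S.nd a x j) a x = S.l1 (S.nd a x j) a ∧
        u a ≤ K * (S.AP j x a ^ S.th * min ((max (S.AP j x a) (S.DP j x a)) ^ (1 - S.th))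
          (S.q (S.nd a x j) (S.l1 (S.nd a x j) a) x).toReal) +
          K * ∑ m ∈ Finset.Ico a (S.be (S.nd a x j) a x), Q m)) :
    ∑ m ∈ Finset.range (S.mT + 1), H148.ac (S.actP j x) (H148.fst (S.BP j x) (S.omP j x) u) m ≤
      K * ∑ m ∈ Finset.range (S.mT + 1), H148.ac (S.actP j x)
        (H148.flf (S.lvP j x) fun m => (S.ent (S.nd m x j) m x).toReal) m +
      K * (∑ m ∈ Finset.range (S.mT + 1), H148.ac (S.actP j x) (H148.ends (S.BP j x) (S.mT + 1)
        (S.omP j x) (H148.cvA S.th (S.AP j x) (S.DP j x)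
          fun m => |S.FP j x m - S.DP j x m|)) m +
        (2 + et) * ∑ m ∈ Finset.range (S.mT + 1), H148.ac (S.actP j x)
          (H148.inn (S.BP j x) (S.mT + 1) (S.omP j x) Q) m) :=
  units_pt' hj hth1 het0 hM4 het hC (fun m h1 h2 h3 h4 =>
    (H148.abs_Psi_le S.hth.le hth1 (AP_pos_p m) (AP_le_p h2)
      ENNReal.toReal_nonneg).trans (hQ m h1 h2 h3 h4)) hK hu

end Vale.Agent.P262.M2.Sys
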