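import Mathlib

/-!
# P262, Milestone 2: the potential `Psi`

`slope th A s = (A / max A (min s (1/8))) ^ th` (equal to `1` for `s ≤ A`, to `(A/s)^th` on
`[A, 1/8]`, constant beyond), `Psi th A F` its integral over `[0, F]`.
-/

set_option linter.all false

open MeasureTheory intervalIntegral Set

namespace Vale.Agent.P262.H148

noncomputable def slope (th A s : ℝ) : ℝ := (A / max A (min s (1 / 8))) ^ th

noncomputable def Psi (th A F : ℝ) : ℝ := ∫ s in (0 : ℝ)..F, slope th A s

section
variable {th A : ℝ}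

lemma max_pos (hA : 0 < A) (s : ℝ) : 0 < max A (min s (1 / 8)) := hA.trans_le (le_max_left _ _)

lemma slope_pos (hA : 0 < A) (s : ℝ) : 0 < slope th A s :=
  Real.rpow_pos_of_pos (div_pos hA (max_pos hA s)) _

lemma slope_le_one (hth : 0 ≤ th) (hA : 0 < A) (s : ℝ) : slope th A s ≤ 1 := by
  refine Real.rpow_le_one (div_pos hA (max_pos hA s)).le ?_ hth
  rw [div_le_one (max_pos hA s)]
  exact le_max_left _ _

lemma slope_anti (hth : 0 ≤ th) (hA : 0 < A) : Antitone (slope th A) := by
  intro s t h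
  refine Real.rpow_le_rpow (div_pos hA (max_pos hA t)).le ?_ hth
  exact div_le_div_of_nonneg_left hA.le (max_pos hA s) (max_le_max le_rfl (min_le_min h le_rfl))

lemma continuous_slope (hA : 0 < A) : Continuous (slope th A) := by
  unfold slope
  refine Continuous.rpow_const ?_ fun s => Or.inl (div_pos hA (max_pos hA s)).ne'
  exact continuous_const.div (continuous_const.max (continuous_id.min continuous_const))
    fun s => (max_pos hA s).ne'

lemma slope_of_le (hA : 0 < A) {s : ℝ} (hs : s ≤ A) : slope th A s = 1 := by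
  unfold slope
  rw [max_eq_left ((min_le_left _ _).trans hs), div_self hA.ne', Real.one_rpow]

lemma slope_mid {s : ℝ} (h1 : A ≤ s) (h2 : s ≤ 1 / 8) : slope th A s = (A / s) ^ th := by
  unfold slope
  rw [min_eq_left h2, max_eq_right h1]

lemma slope_big (hA8 : A ≤ 1 / 8) {s : ℝ} (h : 1 / 8 ≤ s) : slope th A s = (8 * A) ^ th := by
  unfold slope
  rw [min_eq_right h, max_eq_right hA8]
  congr 1
  ring

lemma slope_ge (hth : 0 ≤ th) (hA : 0 < A) {s : ℝ} (h : A ≤ s) : (A / s) ^ th ≤ slope th A s := by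
  have hs : 0 < s := hA.trans_le h
  refine Real.rpow_le_rpow (div_pos hA hs).le ?_ hth
  exact div_le_div_of_nonneg_left hA.le (max_pos hA s) (max_le h (min_le_left _ _))

lemma slope_le (hth : 0 ≤ th) (hth1 : th ≤ 1) (hA : 0 < A) (hA8 : A ≤ 1 / 8) {s : ℝ} (h : A ≤ s)
    (h1 : s ≤ 1) : slope th A s ≤ 8 * (A / s) ^ th := by
  have hs : 0 < s := hA.trans_le h
  have hw : 0 ≤ (A / s) ^ th := Real.rpow_nonneg (div_nonneg hA.le hs.le) _
  rcases le_total s (1 / 8) with h2 | h2
  · rw [slope_mid h h2]; linarith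
  · rw [slope_big hA8 h2]
    have h3 : 8 * A ≤ 8 * (A / s) := by
      have : A ≤ A / s := by rw [le_div_iff₀ hs]; nlinarith
      linarith
    calc (8 * A) ^ th ≤ (8 * (A / s)) ^ th := Real.rpow_le_rpow (by linarith) h3 hth
      _ = 8 ^ th * (A / s) ^ th := Real.mul_rpow (by norm_num) (div_nonneg hA.le hs.le)
      _ ≤ 8 * (A / s) ^ th := by
          refine mul_le_mul_of_nonneg_right ?_ hw
          calc (8 : ℝ) ^ th ≤ 8 ^ (1 : ℝ) := Real.rpow_le_rpow_of_exponent_le (by norm_num) hth1
            _ = 8 := by norm_num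

lemma intv (hA : 0 < A) (a b : ℝ) : IntervalIntegrable (slope th A) volume a b :=
  (continuous_slope hA).intervalIntegrable _ _

lemma Psi_sub (hA : 0 < A) (a b : ℝ) : Psi th A b - Psi th A a = ∫ s in a..b, slope th A s := by
  unfold Psi
  rw [sub_eq_iff_eq_add, add_comm]
  exact (integral_add_adjacent_intervals (intv hA 0 a) (intv hA a b)).symm

lemma Psi_zero : Psi th A 0 = 0 := integral_same

/-- lower bound by the slope at the larger point -/
lemma Psi_sub_ge (hth : 0 ≤ th) (hA : 0 < A) {a b : ℝ} (h : a ≤ b) :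
    slope th A b * (b - a) ≤ Psi th A b - Psi th A a := by
  rw [Psi_sub hA]
  calc slope th A b * (b - a) = ∫ s in a..b, slope th A b := by
        rw [intervalIntegral.integral_const, smul_eq_mul, mul_comm]
    _ ≤ _ := integral_mono_on h (by simp) (intv hA a b) fun s hs => slope_anti hth hA hs.2

/-- upper bound by the slope at the smaller point -/
lemma Psi_sub_le (hth : 0 ≤ th) (hA : 0 < A) {a b : ℝ} (h : a ≤ b) :
    Psi th A b - Psi th A a ≤ slope th A a * (b - a) := by
  rw [Psi_sub hA]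
  calc _ ≤ ∫ s in a..b, slope th A a :=
        integral_mono_on h (intv hA a b) (by simp) fun s hs => slope_anti hth hA hs.1
    _ = _ := by rw [intervalIntegral.integral_const, smul_eq_mul, mul_comm]

/-- concavity in the form used for star steps: any sign of `y - x` -/
lemma Psi_concave (hth : 0 ≤ th) (hA : 0 < A) (x y : ℝ) :
    Psi th A y ≤ Psi th A x + slope th A x * (y - x) := by
  rcases le_total x y with h | h
  · have := Psi_sub_le hth hA h; linarith
  · have := Psi_sub_ge hth hA h; linarith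

lemma Psi_mono (hth : 0 ≤ th) (hA : 0 < A) : Monotone (Psi th A) := by
  intro a b h
  have h1 := Psi_sub_ge hth hA h
  have h2 := mul_nonneg (slope_pos (th := th) hA b).le (sub_nonneg.2 h)
  linarith

/-- linear beyond `1/8` -/
lemma Psi_lin (hA : 0 < A) (hA8 : A ≤ 1 / 8) {a b : ℝ} (ha : 1 / 8 ≤ a) (hb : 1 / 8 ≤ b) :
    Psi th A b - Psi th A a = (8 * A) ^ th * (b - a) := by
  rw [Psi_sub hA]
  have : ∫ s in a..b, slope th A s = ∫ s in a..b, (8 * A) ^ th := by
    refine integral_congr fun s hs => ?_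
    exact slope_big hA8 ((le_min ha hb).trans hs.1)
  rw [this, intervalIntegral.integral_const, smul_eq_mul, mul_comm]

/-- `∫ (A/s)^th` -/
lemma power_int {a b : ℝ} (hth1 : th < 1) (hA : 0 < A) (ha : 0 < a) (hab : a ≤ b) :
    ∫ s in a..b, (A / s) ^ th = A ^ th * (b ^ (1 - th) - a ^ (1 - th)) / (1 - th) := by
  have h1 : ∫ s in a..b, (A / s) ^ th = ∫ s in a..b, A ^ th * s ^ (-th) := by
    refine integral_congr fun s hs => ?_
    have hs0 : 0 < s := lt_of_lt_of_le (lt_min ha (ha.trans_le hab)) hs.1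
    rw [Real.div_rpow hA.le hs0.le, Real.rpow_neg hs0.le, div_eq_mul_inv]
  rw [h1, intervalIntegral.integral_const_mul, integral_rpow (Or.inl (by linarith))]
  rw [show (-th + 1 : ℝ) = 1 - th by ring]
  ring

/-- upper bound by the slope at the LARGER point, with the constant `1/(1-th)` -/
lemma Psi_sub_le_big (hth : 0 ≤ th) (hth1 : th < 1) (hA : 0 < A) (hA8 : A ≤ 1 / 8) {a b : ℝ}
    (ha : 0 ≤ a) (h : a ≤ b) :
    Psi th A b - Psi th A a ≤ 1 / (1 - th) * (slope th A b * (b - a)) := by
  have h1t : 0 < 1 - th := by linarith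
  have hone : 1 ≤ 1 / (1 - th) := by rw [le_div_iff₀ h1t]; linarith
  -- case b ≤ A
  rcases le_total b A with hbA | hbA
  · have h2 := Psi_sub_le hth hA h (th := th)
    rw [slope_of_le hA (h.trans hbA)] at h2
    rw [slope_of_le hA hbA]
    have : 0 ≤ b - a := by linarith
    nlinarith
  -- core: A ≤ b ≤ 1/8
  have core : ∀ b, A ≤ b → b ≤ 1 / 8 → a ≤ b →
      Psi th A b - Psi th A a ≤ 1 / (1 - th) * (slope th A b * (b - a)) := by
    intro b hbA hb8 hab
    have hb0 : 0 < b := hA.trans_le hbA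
    rw [slope_mid hbA hb8]
    have hpow : ∀ x, 0 < x → x ≤ b → b ^ (1 - th) - x ^ (1 - th) ≤ b ^ (-th) * (b - x) := by
      intro x hx hxb
      have e1 : b ^ (1 - th) = b ^ (-th) * b := by
        rw [show (1 - th : ℝ) = -th + 1 by ring, Real.rpow_add_one hb0.ne']
      have e2 : x ^ (1 - th) = x ^ (-th) * x := by
        rw [show (1 - th : ℝ) = -th + 1 by ring, Real.rpow_add_one hx.ne']
      have h3 : b ^ (-th) ≤ x ^ (-th) := Real.rpow_le_rpow_of_nonpos hx hxb (by linarith)
      rw [e1, e2]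
      nlinarith
    have eAb : (A / b) ^ th = A ^ th * b ^ (-th) := by
      rw [Real.div_rpow hA.le hb0.le, Real.rpow_neg hb0.le, div_eq_mul_inv]
    have hAth : 0 < A ^ th := Real.rpow_pos_of_pos hA _
    rcases le_total A a with haA | haA
    · have ha0 : 0 < a := hA.trans_le haA
      have h4 : Psi th A b - Psi th A a ≤ ∫ s in a..b, (A / s) ^ th := by
        rw [Psi_sub hA]
        refine (integral_congr fun s hs => ?_).le
        rw [uIcc_of_le hab] at hs
        exact slope_mid (haA.trans hs.1) (hs.2.trans hb8)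
      rw [power_int hth1 hA ha0 hab] at h4
      refine h4.trans ?_
      rw [eAb, div_eq_mul_inv, mul_comm _ (1 - th)⁻¹, one_div]
      refine mul_le_mul_of_nonneg_left ?_ (inv_nonneg.2 h1t.le)
      have := hpow a ha0 hab
      nlinarith
    · have h4 : Psi th A b - Psi th A A ≤ ∫ s in A..b, (A / s) ^ th := by
        rw [Psi_sub hA]
        refine (integral_congr fun s hs => ?_).le
        rw [uIcc_of_le hbA] at hs
        exact slope_mid hs.1 (hs.2.trans hb8)
      rw [power_int hth1 hA hA hbA] at h4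
      have h5 : Psi th A A - Psi th A a ≤ A - a := by
        have := Psi_sub_le hth hA haA (th := th)
        rw [slope_of_le hA haA, one_mul] at this
        exact this
      have h6 : A ^ th * A ^ (1 - th) = A := by
        rw [← Real.rpow_add hA]; simp
      have h7 : A ^ th * b ^ (1 - th) = A ^ th * b ^ (-th) * b := by
        rw [show (1 - th : ℝ) = -th + 1 by ring, Real.rpow_add_one hb0.ne', mul_assoc]
      have h8 : A ^ th * b ^ (-th) ≤ 1 := by
        rw [← eAb]
        exact Real.rpow_le_one (div_nonneg hA.le hb0.le) ((div_le_one hb0).2 hbA) hth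
      rw [eAb, one_div]
      have h9 : A ^ th * (b ^ (1 - th) - A ^ (1 - th)) / (1 - th) + (A - a) ≤
          (1 - th)⁻¹ * (A ^ th * b ^ (-th) * (b - a)) := by
        rw [div_eq_mul_inv, mul_comm _ (1 - th)⁻¹]
        have e : A - a = (1 - th)⁻¹ * ((1 - th) * (A - a)) := by
          rw [← mul_assoc, inv_mul_cancel₀ h1t.ne', one_mul]
        rw [e, ← mul_add]
        refine mul_le_mul_of_nonneg_left ?_ (inv_nonneg.2 h1t.le)
        rw [mul_sub, h6, h7]
        set c := A ^ th * b ^ (-th) with hc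
        have hc0 : 0 ≤ c := mul_nonneg hAth.le (Real.rpow_nonneg hb0.le _)
        -- need: c*b - A + (1-th)(A-a) ≤ c*(b-a), i.e. c*a ≤ A - (1-th)(A-a) = a + th (A - a)
        have : c * a ≤ a := by nlinarith
        nlinarith [mul_nonneg hth (sub_nonneg.2 haA)]
      linarith
  rcases le_total b (1 / 8) with hb8 | hb8
  · exact core b hbA hb8 h
  · rw [slope_big hA8 hb8]
    have hc : 0 < (8 * A) ^ th := Real.rpow_pos_of_pos (by linarith) _
    rcases le_total (1 / 8) a with ha8 | ha8
    · rw [Psi_lin hA hA8 ha8 hb8]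
      have : 0 ≤ (8 * A) ^ th * (b - a) := mul_nonneg hc.le (by linarith)
      nlinarith
    · have h2 := core (1 / 8) hA8 le_rfl ha8
      rw [slope_big hA8 le_rfl] at h2
      have h3 := Psi_lin (th := th) hA hA8 le_rfl hb8
      have : 0 ≤ (8 * A) ^ th * (b - 1 / 8) := mul_nonneg hc.le (by linarith)
      nlinarith

/-- `Psi` is at most `C A^th x^(1-th)` above its value at `A` -/
lemma Psi_le_power (hth : 0 ≤ th) (hth1 : th < 1) (hA : 0 < A) (hA8 : A ≤ 1 / 8) {x : ℝ}
    (hx : A ≤ x) (hx1 : x ≤ 1) :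
    Psi th A x - Psi th A A ≤ 8 / (1 - th) * (A ^ th * x ^ (1 - th)) := by
  have h1t : 0 < 1 - th := by linarith
  have hx0 : 0 < x := hA.trans_le hx
  rw [Psi_sub hA]
  have h1 : ∫ s in A..x, slope th A s ≤ ∫ s in A..x, 8 * (A / s) ^ th := by
    refine integral_mono_on hx (intv hA A x) ?_ fun s hs =>
      slope_le hth hth1.le hA hA8 hs.1 (hs.2.trans hx1)
    refine ContinuousOn.intervalIntegrable ?_
    rw [uIcc_of_le hx]
    intro s hs
    have hs0 : s ≠ 0 := (hA.trans_le hs.1).ne'
    refine ContinuousAt.continuousWithinAt ?_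
    refine continuousAt_const.mul (ContinuousAt.rpow_const (continuousAt_const.div continuousAt_id hs0) ?_)
    left
    exact (div_pos hA (hA.trans_le hs.1)).ne'
  refine h1.trans ?_
  rw [intervalIntegral.integral_const_mul, power_int hth1 hA hA hx]
  have h2 : 0 ≤ A ^ th * A ^ (1 - th) :=
    mul_nonneg (Real.rpow_nonneg hA.le _) (Real.rpow_nonneg hA.le _)
  have h3 : A ^ th * (x ^ (1 - th) - A ^ (1 - th)) ≤ A ^ th * x ^ (1 - th) := by
    rw [mul_sub]; linarith
  rw [div_mul_eq_mul_div, ← mul_div_assoc]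
  exact div_le_div_of_nonneg_right (by linarith) h1t.le

/-- **bracket**: start by the dead mass, end by the alive mass -/
theorem Psi_bracket (hth : 0 ≤ th) (hth1 : th < 1) (hA : 0 < A) (hA8 : A ≤ 1 / 8) {Ds qe : ℝ}
    (hDs : 0 ≤ Ds) (hDs1 : Ds ≤ 1) (hq : 0 ≤ qe) (hq1 : qe ≤ 1) :
    Psi th A (max A Ds) - Psi th A (max A (1 - qe)) ≤
      10 / (1 - th) * (A ^ th * min (Ds ^ (1 - th)) qe) := by
  have h1t : 0 < 1 - th := by linarith
  have hinv : 1 ≤ 1 / (1 - th) := by rw [le_div_iff₀ h1t]; linarith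
  have hAth : 0 < A ^ th := Real.rpow_pos_of_pos hA _
  have hDp : 0 ≤ Ds ^ (1 - th) := Real.rpow_nonneg hDs _
  have hmin : 0 ≤ min (Ds ^ (1 - th)) qe := le_min hDp hq
  have hmA : 0 ≤ A ^ th * min (Ds ^ (1 - th)) qe := mul_nonneg hAth.le hmin
  have hR : 0 ≤ 10 / (1 - th) * (A ^ th * min (Ds ^ (1 - th)) qe) :=
    mul_nonneg (by positivity) hmA
  rcases le_total Ds A with h | h
  · rw [max_eq_left h]
    have : Psi th A A ≤ Psi th A (max A (1 - qe)) := Psi_mono hth hA (le_max_left _ _)
    linarith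
  · rw [max_eq_right h]
    have h0 : Psi th A A ≤ Psi th A (max A (1 - qe)) := Psi_mono hth hA (le_max_left _ _)
    have h1 := Psi_le_power hth hth1 hA hA8 h hDs1
    have hfirst : Psi th A Ds - Psi th A (max A (1 - qe)) ≤
        8 / (1 - th) * (A ^ th * Ds ^ (1 - th)) := by linarith
    rcases le_total (Ds ^ (1 - th)) qe with h2 | h2
    · rw [min_eq_left h2]
      refine hfirst.trans ?_
      have : 0 ≤ A ^ th * Ds ^ (1 - th) := mul_nonneg hAth.le hDp
      refine mul_le_mul_of_nonneg_right ?_ this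
      exact div_le_div_of_nonneg_right (by norm_num) h1t.le
    · rw [min_eq_right h2]
      rcases le_total (1 / 8) (1 - qe) with h3 | h3
      · -- `D_e ≥ 1/8`
        have h4 : max A (1 - qe) = 1 - qe := max_eq_right (hA8.trans h3)
        rw [h4]
        rcases le_total Ds (1 - qe) with h5 | h5
        · have : Psi th A Ds ≤ Psi th A (1 - qe) := Psi_mono hth hA h5
          have : 0 ≤ 10 / (1 - th) * (A ^ th * qe) :=
            mul_nonneg (by positivity) (mul_nonneg hAth.le hq)
          linarith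
        · rw [Psi_lin hA hA8 h3 (h3.trans h5), Real.mul_rpow (by norm_num) hA.le]
          have h6 : (8 : ℝ) ^ th ≤ 8 := by
            calc (8 : ℝ) ^ th ≤ 8 ^ (1 : ℝ) :=
                  Real.rpow_le_rpow_of_exponent_le (by norm_num) hth1.le
              _ = 8 := by norm_num
          have h7 : Ds - (1 - qe) ≤ qe := by linarith
          have h8 : 8 ^ th * A ^ th * (Ds - (1 - qe)) ≤ 8 * (A ^ th * qe) := by
            have : 8 ^ th * A ^ th * (Ds - (1 - qe)) ≤ 8 ^ th * A ^ th * qe :=
              mul_le_mul_of_nonneg_left h7 (by positivity)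
            have h9 : (8 : ℝ) ^ th * (A ^ th * qe) ≤ 8 * (A ^ th * qe) :=
              mul_le_mul_of_nonneg_right h6 (mul_nonneg hAth.le hq)
            linarith
          have h9 : 8 * (A ^ th * qe) ≤ 10 / (1 - th) * (A ^ th * qe) := by
            refine mul_le_mul_of_nonneg_right ?_ (mul_nonneg hAth.le hq)
            rw [le_div_iff₀ h1t]; linarith
          linarith
      · -- `q_e ≥ 7/8`
        refine hfirst.trans ?_
        have h4 : Ds ^ (1 - th) ≤ 1 := Real.rpow_le_one hDs hDs1 h1t.le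
        have h5 : 7 / 8 ≤ qe := by linarith
        have h6 : 8 * (A ^ th * Ds ^ (1 - th)) ≤ 10 * (A ^ th * qe) := by nlinarith
        rw [div_mul_eq_mul_div, div_mul_eq_mul_div]
        exact div_le_div_of_nonneg_right h6 h1t.le

end

end Vale.Agent.P262.H148
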