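import Vale.Agent.P262.M2.SumInt
import Vale.Agent.P262.H59.PsiE
import Vale.Agent.P262.H148.PtS2

/-!
# P262, milestone 2: the accounting, from one point to the integrals (preparations)
-/

set_option linter.all false

open MeasureTheory ProbabilityTheory Set
open scoped ENNReal RealInnerProductSpace
open Vale.Agent.P262.H118 (Iv st en K2 El2 paths)
open Vale.Agent.P262.H148 (Psi)

namespace Vale.Agent.P262.M2.Sys

variable {E : Type*} [NormedAddCommGroup E] [InnerProductSpace ℝ E] [FiniteDimensional ℝ E]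
  [MeasurableSpace E] [BorelSpace E] {S : Sys E} {j : ℕ} {x : E}

/-! ### measurability of the potential -/

lemma ofReal_Psi_i {th a y : ℝ} (ha : 0 < a) (hy : 0 ≤ y) :
    ENNReal.ofReal (Psi th a y) = ∫⁻ s, (Ioc 0 y).indicator
      (fun s => ENNReal.ofReal (H148.slope th a s)) s := by
  unfold H148.Psi
  rw [intervalIntegral.integral_of_le hy, ofReal_integral_eq_lintegral_ofReal,
    lintegral_indicator measurableSet_Ioc]
  · exact (H148.continuous_slope ha).integrableOn_Ioc
  · exact Filter.Eventually.of_forall fun s => (H148.slope_pos ha s).le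

lemma PsiE_meas_i (p : List ℕ) (m : ℕ) {f : E → ℝ≥0∞} (hf : Measurable f) :
    Measurable fun x => S.PsiE p m x (f x) := by
  have h1 : (fun x => S.PsiE p m x (f x)) = fun x => ∫⁻ s, (fun z : E × ℝ =>
      {z : E × ℝ | 0 < z.2 ∧ z.2 ≤ (f z.1).toReal}.indicator
        (fun z => ENNReal.ofReal (H148.slope S.th (S.A p m z.1).toReal z.2)) z) (x, s) := by
    funext x
    rw [PsiE_eq, ofReal_Psi_i (AR_pos p m x) ENNReal.toReal_nonneg]
    refine lintegral_congr fun s => ?_
    by_cases hs : s ∈ Ioc 0 (f x).toReal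
    · rw [indicator_of_mem hs]
      simp only
      rw [indicator_of_mem (show ((x, s) : E × ℝ) ∈
        {z : E × ℝ | 0 < z.2 ∧ z.2 ≤ (f z.1).toReal} from hs)]
    · rw [indicator_of_notMem hs]
      simp only
      rw [indicator_of_notMem (show ((x, s) : E × ℝ) ∉
        {z : E × ℝ | 0 < z.2 ∧ z.2 ≤ (f z.1).toReal} from hs)]
  rw [h1]
  have hA : Measurable fun z : E × ℝ => (S.A p m z.1).toReal :=
    ((S.A_meas p m).comp measurable_fst).ennreal_toReal
  have hfm : Measurable fun z : E × ℝ => (f z.1).toReal :=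
    (hf.comp measurable_fst).ennreal_toReal
  have hs : MeasurableSet {z : E × ℝ | 0 < z.2 ∧ z.2 ≤ (f z.1).toReal} :=
    (measurableSet_lt measurable_const measurable_snd).inter
      (measurableSet_le measurable_snd hfm)
  refine Measurable.lintegral_prod_right' (f := fun z : E × ℝ =>
      {z : E × ℝ | 0 < z.2 ∧ z.2 ≤ (f z.1).toReal}.indicator
        (fun z => ENNReal.ofReal (H148.slope S.th (S.A p m z.1).toReal z.2)) z) ?_
  refine Measurable.indicator ?_ hs
  refine ENNReal.measurable_ofReal.comp ?_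
  unfold H148.slope
  exact (hA.div (hA.max (measurable_snd.min measurable_const))).pow_const _

/-! ### masses -/

lemma F_ne_top_i (p : List ℕ) (m : ℕ) (x : E) : S.F p m x ≠ ⊤ :=
  ne_top_of_le_ne_top ENNReal.one_ne_top (S.F_le_one _ _ _)

lemma ofReal_abs_sub_i {a b : ℝ≥0∞} (ha : a ≠ ⊤) (hb : b ≠ ⊤) :
    ENNReal.ofReal |a.toReal - b.toReal| = (a - b) + (b - a) := by
  rcases le_total a b with h | h
  · have h1 : a.toReal ≤ b.toReal := ENNReal.toReal_mono hb h
    rw [abs_of_nonpos (by linarith), tsub_eq_zero_of_le h, zero_add, neg_sub,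
      ENNReal.ofReal_sub _ ENNReal.toReal_nonneg, ENNReal.ofReal_toReal ha,
      ENNReal.ofReal_toReal hb]
  · have h1 : b.toReal ≤ a.toReal := ENNReal.toReal_mono ha h
    rw [abs_of_nonneg (by linarith), tsub_eq_zero_of_le h, add_zero,
      ENNReal.ofReal_sub _ ENNReal.toReal_nonneg, ENNReal.ofReal_toReal ha,
      ENNReal.ofReal_toReal hb]

lemma ofReal_abs_sub_le_i {a b g : ℝ≥0∞} (ha : a ≠ ⊤) (hb : b ≠ ⊤) (h1 : a ≤ b + g)
    (h2 : b ≤ a + g) : ENNReal.ofReal |a.toReal - b.toReal| ≤ g := by
  rw [ofReal_abs_sub_i ha hb]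
  rcases le_total a b with h | h
  · rw [tsub_eq_zero_of_le h, zero_add, tsub_le_iff_left]; exact h2
  · rw [tsub_eq_zero_of_le h, add_zero, tsub_le_iff_left]; exact h1

/-- `ofReal` of the slope at the larger mass -/
lemma sw_eq_i (p : List ℕ) (m : ℕ) (x : E) :
    ENNReal.ofReal (H148.slope S.th (S.A p m x).toReal
      (max (S.F p m x).toReal (S.F p (m + 1) x).toReal)) = S.sw p m x := by
  unfold sw
  have h1 : max (S.F p m x) (S.F p (m + 1) x) ≠ ⊤ := by
    rcases max_choice (S.F p m x) (S.F p (m + 1) x) with h | h <;> rw [h] <;>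
      exact F_ne_top_i _ _ _
  rw [slp_eq h1, ENNReal.toReal_max (F_ne_top_i _ _ _) (F_ne_top_i _ _ _)]

/-- closeness in real numbers, ENNReal form -/
lemma hf_eq_i (p : List ℕ) (m : ℕ) (x : E) :
    ENNReal.ofReal |(S.F p m x).toReal - (S.De p m x).toReal| = S.hf p m x :=
  ofReal_abs_sub_i (F_ne_top_i _ _ _) (De_ne_top_p _ _ _)

/-! ### sets -/

lemma measurableSet_om_nd_i (j m : ℕ) : MeasurableSet {x | x ∈ S.om (S.nd m x j) m} :=
  measurableSet_nd (S := S) m j (s := fun r => S.om r m) fun r => S.measurableSet_om r m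

lemma measurableSet_omj_i (j m : ℕ) : MeasurableSet (S.omj j m) :=
  ((measurableSet_NL j m).inter (measurableSet_OL j m)).inter (measurableSet_om_nd_i j m)

lemma measurable_be_i (p : List ℕ) (m : ℕ) : MeasurableSet {x : E | m < S.be p m x} := by
  have h : Measurable fun x => S.be p m x := by
    have h1 : Measurable fun c : ℕ => S.mv.eS (S.K.B p c) m := measurable_from_top
    exact h1.comp (measurable_kl p m)
  exact h measurableSet_Ioi

lemma measurableSet_inn_i (j m : ℕ) : MeasurableSet (S.inn j m) :=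
  measurableSet_nd (S := S) m j (s := fun r => {x | m < S.be r m x}) fun r =>
    measurable_be_i r m

lemma measurableSet_edg_i (j m : ℕ) : MeasurableSet (S.edg j m) := by
  refine measurableSet_nd (S := S) m j
    (s := fun r => {x | S.bs r m x = m ∨ S.be r m x = m}) fun r => ?_
  have hb : Measurable fun x => S.bs r m x := by
    have h1 : Measurable fun c : ℕ => S.mv.sS (S.K.B r c) m := measurable_from_top
    exact h1.comp (measurable_kl r m)
  have he : Measurable fun x => S.be r m x := by
    have h1 : Measurable fun c : ℕ => S.mv.eS (S.K.B r c) m := measurable_from_top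
    exact h1.comp (measurable_kl r m)
  exact (hb (measurableSet_singleton m)).union (he (measurableSet_singleton m))

lemma measurableSet_l0_i (j m : ℕ) : MeasurableSet {x : E | S.l0 (S.nd m x j) m = m} := by
  classical
  have := measurableSet_nd (S := S) m j
    (s := fun r => if S.l0 r m = m then (univ : Set E) else ∅) fun r => by
      split_ifs
      · exact MeasurableSet.univ
      · exact MeasurableSet.empty
  convert this using 1
  ext x
  simp only [mem_setOf_eq]
  split_ifs with h <;> simp [h]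

/-- star and rotation moves are inner -/
lemma inn_of_active_i {m : ℕ} (hm : m < S.mT) (h : S.mv.IsStar m ∨ S.mv.IsRot m) (x : E) :
    x ∈ S.inn j m := by
  have ht : S.mv.tm m < S.T := tm_lt_p hm.le
  have h1 := Same.active (S := S) (zero_mem_BB (S := S) (S.nd m x j) m x) h ht
  exact Nat.lt_of_succ_le h1.2

/-- the last state is not the first one of a life -/
lemma mT_not_lv_i : S.mT ∉ S.lvP j x := by
  intro h
  have h1 : S.mv.sS (S.K.nw (S.nd S.mT x j)) S.mT = S.mT := h
  have h2 : S.mv.sS (S.K.nw (S.nd S.mT x j)) S.mT ≤ S.mv.n (S.mv.tm S.mT) :=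
    S.mv.n_mono (Vale.Agent.P262.H118.st_le _)
  have hT := S.hT
  have h3 : S.mv.n (S.T - 1) + 2 ≤ S.mv.n (S.T - 1 + 1) := S.mv.n_succ _
  have h4 : S.T - 1 + 1 = S.T := by omega
  rw [h4] at h3
  have h5 : S.mv.tm S.mT = S.T - 1 := by
    refine S.mv.tm_eq ?_ ?_
    · unfold mT; omega
    · rw [h4]; unfold mT; omega
  rw [h5] at h2
  unfold mT at h1 h2
  omega

end Vale.Agent.P262.M2.Sys
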