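import Vale.Agent.P262.H148.IntT1
import Vale.Agent.P262.H44.FinA

/-!
# P262, milestone 2: root form of (T1)
-/

set_option linter.all false

open MeasureTheory ProbabilityTheory Set
open scoped ENNReal RealInnerProductSpace
open Vale.Agent.P262.H118 (Iv st en K2 El2 paths)
open Vale.Agent.P262.H148 (Psi)

namespace Vale.Agent.P262.M2.Sys

variable {E : Type*} [NormedAddCommGroup E] [InnerProductSpace ℝ E] [FiniteDimensional ℝ E]
  [MeasurableSpace E] [BorelSpace E] {S : Sys E} {j : ℕ} {x : E}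

open Classical in
/-- **(T1) at one point**, ENNReal form, the sum of the brackets is at most `b - a` -/
theorem T1_signed {G : List ℕ → ℕ → E → ℝ≥0∞} (hj : j < S.nl) (hM : S.MOVE G) (hCl : S.CLOSE)
    (hth1 : S.th ≤ 1 / 2) {et : ℝ} (het0 : 0 ≤ et) (hM4 : 4 ≤ S.M)
    (het : 1 ≤ et * ((S.M / 4) ^ (1 - S.th) - 2))
    {br : ℕ → ℝ} (hbr : ∀ s e, Iv (S.lvP j x) (S.mT + 1) s e → S.actP j x s →
      Psi S.th (S.AP j x s) (max (S.AP j x s) (S.DP j x s)) -
        Psi S.th (S.AP j x s) (max (S.AP j x s) (S.DP j x (e - 1))) ≤ br s)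
    {a b : ℝ} (ha : 0 ≤ a) (hab : ∑ m ∈ Finset.range (S.mT + 1),
      H148.ac (S.actP j x) (H148.flf (S.lvP j x) br) m ≤ b - a) :
    ENNReal.ofReal a + ∑ m ∈ Finset.range S.mT, (if S.mv.IsStar m then iw (S.omj j m) x *
        S.PsiE (S.nd m x j) m x (S.F (S.nd m x j) m x) else 0) ≤
      ∑ m ∈ Finset.range S.mT, (if S.mv.IsStar m then iw (S.omj j m) x *
        S.PsiE (S.nd m x j) m x (S.F (S.nd m x j) (m + 1) x) else 0) +
      ENNReal.ofReal b +
      4 * ∑ m ∈ Finset.range (S.mT + 1), iw (S.omj j m ∩ S.edg j m) x *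
        (S.slp (S.nd m x j) m x (S.De (S.nd m x j) m x) * S.hf (S.nd m x j) m x) +
      ENNReal.ofReal (2 * (1 + et)) * ∑ m ∈ Finset.range S.mT, (if S.mv.IsStar m then 0 else
        iw (S.omj j m ∩ S.inn j m) x * (S.sw (S.nd m x j) m x * G (S.nd m x j) m x)) +
      ENNReal.ofReal (2 * et) * ∑ m ∈ Finset.range S.mT, (if S.mv.IsStar m then
        iw (S.omj j m) x * (S.sw (S.nd m x j) m x * G (S.nd m x j) m x) else 0) := by
  have key := T1_real (S := S) (j := j) (x := x) hj.le hth1 het0 hM4 het (clP_of hj hCl x) hbr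
  have hPn : ∀ m y, 0 ≤ y → 0 ≤ Psi S.th (S.AP j x m) y := fun m y hy => Psi_nonneg hy
  have hP1 : ∀ m, 0 ≤ (if x ∈ S.omj j m ∩ S.inn j m then
        (if S.mv.IsStar m then Psi S.th (S.AP j x m) (S.FP j x m) else 0) else 0) := fun m => by
    split_ifs
    · exact hPn _ _ ENNReal.toReal_nonneg
    · exact le_rfl
    · exact le_rfl
  have hP2 : ∀ m, 0 ≤ (if x ∈ S.omj j m ∩ S.inn j m then
        (if S.mv.IsStar m then Psi S.th (S.AP j x m) (S.FP j x (m + 1)) else 0) else 0) :=
    fun m => by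
    split_ifs
    · exact hPn _ _ ENNReal.toReal_nonneg
    · exact le_rfl
    · exact le_rfl
  have hP3 : ∀ m, 0 ≤ (if x ∈ S.omj j m ∩ S.edg j m then 4 * S.eP j x m else 0) := fun m => by
    have := eP_nonneg (S := S) (j := j) (x := x) m
    split_ifs
    · linarith
    · exact le_rfl
  have hP4 : ∀ m, 0 ≤ (if x ∈ S.omj j m ∩ S.inn j m then
        (if S.mv.IsStar m then 0 else S.QP j x m) else 0) := fun m => by
    split_ifs
    · exact le_rfl
    · exact abs_nonneg _
    · exact le_rfl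
  have hP5 : ∀ m, 0 ≤ (if x ∈ S.omj j m ∩ S.inn j m then
        (if S.mv.IsStar m then S.QP j x m else 0) else 0) := fun m => by
    split_ifs
    · exact abs_nonneg _
    · exact le_rfl
    · exact le_rfl
  have key2 : a + ∑ m ∈ Finset.range S.mT, (if x ∈ S.omj j m ∩ S.inn j m then
        (if S.mv.IsStar m then Psi S.th (S.AP j x m) (S.FP j x m) else 0) else 0) ≤
      ∑ m ∈ Finset.range S.mT, (if x ∈ S.omj j m ∩ S.inn j m then
        (if S.mv.IsStar m then Psi S.th (S.AP j x m) (S.FP j x (m + 1)) else 0) else 0) +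
      b +
      ∑ m ∈ Finset.range (S.mT + 1), (if x ∈ S.omj j m ∩ S.edg j m then 4 * S.eP j x m else 0) +
      (1 + et) * ∑ m ∈ Finset.range S.mT, (if x ∈ S.omj j m ∩ S.inn j m then
        (if S.mv.IsStar m then 0 else S.QP j x m) else 0) +
      et * ∑ m ∈ Finset.range S.mT, (if x ∈ S.omj j m ∩ S.inn j m then
        (if S.mv.IsStar m then S.QP j x m else 0) else 0) := by linarith
  have k1 := ENNReal.ofReal_le_ofReal key2
  rw [ENNReal.ofReal_add ha (Finset.sum_nonneg fun m _ => hP1 m),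
    ENNReal.ofReal_sum_of_nonneg fun m _ => hP1 m] at k1
  have e1 : ∑ m ∈ Finset.range S.mT, (if S.mv.IsStar m then iw (S.omj j m) x *
        S.PsiE (S.nd m x j) m x (S.F (S.nd m x j) m x) else 0) =
      ∑ m ∈ Finset.range S.mT, ENNReal.ofReal (if x ∈ S.omj j m ∩ S.inn j m then
        (if S.mv.IsStar m then Psi S.th (S.AP j x m) (S.FP j x m) else 0) else 0) := by
    refine Finset.sum_congr rfl fun m hm => ?_
    rw [star_term_i (Finset.mem_range.1 hm)]
    rfl
  rw [e1]
  refine k1.trans ?_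
  refine (ENNReal.ofReal_add_le).trans (add_le_add ((ENNReal.ofReal_add_le).trans
    (add_le_add ((ENNReal.ofReal_add_le).trans (add_le_add ((ENNReal.ofReal_add_le).trans
      (add_le_add ?_ le_rfl)) ?_)) ?_)) ?_)
  · -- potential after the stars
    rw [ENNReal.ofReal_sum_of_nonneg fun m _ => hP2 m]
    refine Finset.sum_le_sum fun m hm => ?_
    have hm' := Finset.mem_range.1 hm
    rw [star_term_i hm']
    by_cases hs : S.mv.IsStar m
    · rw [if_pos hs, if_pos hs]
      refine le_of_eq ?_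
      congr 1
      rw [PsiE_eq]
      unfold FP AP
      rw [nd_succ_inn_i hm' (inn_of_active_i hm' (Or.inl hs) x)]
    · rw [if_neg hs, if_neg hs]
  · -- ends
    rw [ENNReal.ofReal_sum_of_nonneg fun m _ => hP3 m, Finset.mul_sum]
    refine Finset.sum_le_sum fun m hm => ?_
    rw [iw_mul_ofReal_i, ENNReal.ofReal_mul (by norm_num), eP_eq_i]
    have h6 : ENNReal.ofReal (4 : ℝ) = 4 := by norm_num
    rw [h6]
    refine le_of_eq ?_
    ring
  · -- other moves
    rw [ENNReal.ofReal_mul (by linarith), ENNReal.ofReal_sum_of_nonneg fun m _ => hP4 m,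
      Finset.mul_sum, Finset.mul_sum]
    refine Finset.sum_le_sum fun m hm => ?_
    have hm' := Finset.mem_range.1 hm
    by_cases hx : x ∈ S.omj j m ∩ S.inn j m
    · rw [if_pos hx]
      by_cases hs : S.mv.IsStar m
      · rw [if_pos hs, if_pos hs]; simp
      · rw [if_neg hs, if_neg hs]
        unfold iw
        rw [indicator_of_mem hx]
        have h1 := QP_le_i hj hM hth1 hm' hx
        rw [mul_comm (2 : ℝ), ENNReal.ofReal_mul (by linarith)]
        have h6 : ENNReal.ofReal (2 : ℝ) = 2 := by norm_num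
        rw [h6, mul_assoc]
        gcongr
        simpa using h1
    · rw [if_neg hx]; simp
  · -- stars
    rw [ENNReal.ofReal_mul het0, ENNReal.ofReal_sum_of_nonneg fun m _ => hP5 m,
      Finset.mul_sum, Finset.mul_sum]
    refine Finset.sum_le_sum fun m hm => ?_
    have hm' := Finset.mem_range.1 hm
    by_cases hx : x ∈ S.omj j m ∩ S.inn j m
    · rw [if_pos hx]
      by_cases hs : S.mv.IsStar m
      · rw [if_pos hs, if_pos hs]
        unfold iw
        rw [indicator_of_mem hx.1]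
        have h1 := QP_le_i hj hM hth1 hm' hx
        rw [mul_comm (2 : ℝ), ENNReal.ofReal_mul het0]
        have h6 : ENNReal.ofReal (2 : ℝ) = 2 := by norm_num
        rw [h6, mul_assoc]
        gcongr
        simpa using h1
      · rw [if_neg hs, if_neg hs]; simp
    · rw [if_neg hx]; simp

/-! ### the root -/

lemma not_leaf_nil_i (m : ℕ) : ¬ S.Leaf [] m := by
  unfold Leaf
  rw [S.W_nil, Submodule.bot_orthogonal_eq_top, finrank_top]
  have := S.hd2
  omega

lemma AP_zero_i (m : ℕ) : S.AP 0 x m = S.A0 := by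
  unfold AP
  rw [show S.nd m x 0 = [] from rfl, S.A_nil, ENNReal.toReal_ofReal S.hA0.le]

lemma DP_zero_i (m : ℕ) : S.DP 0 x m = (S.De [] m 0).toReal := by
  unfold DP
  rw [show S.nd m x 0 = [] from rfl, De_nil_44]

lemma act_zero_i (m : ℕ) : S.actP 0 x m := by
  refine ⟨not_leaf_nil_i m, fun i hi => absurd hi (Nat.not_lt_zero i), ?_⟩
  rw [show S.nd m x 0 = [] from rfl, S.Z_nil]
  exact fun h => h

lemma lv_zero_i {m : ℕ} : m ∈ S.lvP 0 x ↔ m = 0 := by
  have h : m ∈ S.lvP 0 x ↔ S.mv.sS (S.K.nw []) m = m := Iff.rfl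
  rw [h, sS_nw_nil_44]
  exact eq_comm

/-- `4 ≤ M` follows from the condition on `et` -/
lemma four_le_M_i {et : ℝ} (hth : S.th ≤ 1 / 2) (het0 : 0 ≤ et) (het1 : et ≤ 1)
    (het : 1 ≤ et * ((S.M / 4) ^ (1 - S.th) - 2)) : 4 ≤ S.M := by
  by_contra hcon
  push Not at hcon
  have hM := S.hM
  have h1 : (S.M / 4) ^ (1 - S.th) ≤ 1 :=
    Real.rpow_le_one (by linarith) (by linarith) (by linarith)
  nlinarith

/-- **root form of (T1)** -/
theorem int_root {G : List ℕ → ℕ → E → ℝ≥0∞} (hG : ∀ p m, Measurable (G p m))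
    (h0 : 0 < S.nl) (hM : S.MOVE G) (hCl : S.CLOSE) (hth1 : S.th ≤ 1 / 2) {et : ℝ}
    (het0 : 0 ≤ et) (het1 : et ≤ 1) (hM4 : 4 ≤ S.M)
    (het : 1 ≤ et * ((S.M / 4) ^ (1 - S.th) - 2)) (hD : S.De [] 0 0 ≤ ENNReal.ofReal S.A0) :
    ENNReal.ofReal (Psi S.th S.A0 (max S.A0 (S.De [] S.mT 0).toReal)) + S.SF 0 ≤
      ENNReal.ofReal S.A0 + S.SF' 0 + 4 * S.It G 0 + ENNReal.ofReal (2 * et) * S.Rt G 0 := by
  classical
  set D0 : ℝ := (S.De [] 0 0).toReal with hD0
  set DT : ℝ := (S.De [] S.mT 0).toReal with hDT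
  have hA := S.hA0
  have hDA : D0 ≤ S.A0 := ENNReal.toReal_le_of_le_ofReal hA.le hD
  have hb : Psi S.th S.A0 (max S.A0 D0) = S.A0 := by
    rw [max_eq_left hDA]
    have h1 : Psi S.th S.A0 S.A0 - Psi S.th S.A0 0 = ∫ s in (0 : ℝ)..S.A0, (1 : ℝ) := by
      rw [H148.Psi_sub hA]
      refine intervalIntegral.integral_congr fun s hs => ?_
      rw [uIcc_of_le hA.le] at hs
      exact H148.slope_of_le hA hs.2
    rw [H148.Psi_zero, sub_zero] at h1
    rw [h1]
    simp
  set a : ℝ := Psi S.th S.A0 (max S.A0 DT) with ha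
  have ha0 : 0 ≤ a := by
    have h1 := H148.Psi_mono (th := S.th) S.hth.le hA
      (show (0 : ℝ) ≤ max S.A0 DT from hA.le.trans (le_max_left _ _))
    rwa [H148.Psi_zero] at h1
  have key := int_T1_aux (S := S) hG (et := et) (L := fun _ => ENNReal.ofReal a)
    (B := fun _ => ENNReal.ofReal S.A0) measurable_const (j := 0) fun x => by
      refine T1_signed (S := S) (x := x) (j := 0) h0 hM hCl hth1 het0 hM4 het
        (br := fun s => if s = 0 then S.A0 - a else 0) ?_ ha0 ?_
      · intro s e hiv _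
        have hs : s = 0 := lv_zero_i.1 hiv.1
        have he : e = S.mT + 1 := by
          rcases hiv.2.2.2.1 with h | h
          · have h1 : e = 0 := lv_zero_i.1 h
            have h2 := hiv.2.1
            omega
          · exact h
        subst hs he
        rw [if_pos rfl, AP_zero_i, DP_zero_i, Nat.add_sub_cancel, DP_zero_i, ← hD0, ← hDT, hb]
      · rw [Finset.sum_eq_single_of_mem 0 (Finset.mem_range.2 (Nat.succ_pos _))]
        · unfold H148.ac H148.flf
          rw [if_pos (act_zero_i 0), if_pos (lv_zero_i.2 rfl)]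
          simp only [if_true]
          exact le_rfl
        · intro m _ hm
          unfold H148.ac H148.flf
          rw [if_neg fun h => hm (lv_zero_i.1 h)]
          split_ifs <;> rfl
  rw [lintegral_const, lintegral_const, measure_univ, mul_one, mul_one] at key
  refine key.trans ?_
  have h2 := It_bound_i (S := S) (G := G) het1 0
  calc S.SF' 0 + ENNReal.ofReal S.A0 + 4 * S.Et 0 + ENNReal.ofReal (2 * (1 + et)) *
        (∑ m ∈ Finset.range S.mT, if S.mv.IsStar m then 0 else S.Pt G 0 m) +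
        ENNReal.ofReal (2 * et) * S.Rt G 0
      = ENNReal.ofReal S.A0 + S.SF' 0 + (4 * S.Et 0 + ENNReal.ofReal (2 * (1 + et)) *
        (∑ m ∈ Finset.range S.mT, if S.mv.IsStar m then 0 else S.Pt G 0 m)) +
        ENNReal.ofReal (2 * et) * S.Rt G 0 := by ring
    _ ≤ _ := by gcongr

end Vale.Agent.P262.M2.Sys
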