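import Vale.Agent.P262.M2.Blocks

/-!
# P262, milestone 2: the potential before and after the stars of one level
-/

set_option linter.all false

open MeasureTheory ProbabilityTheory Set
open scoped ENNReal RealInnerProductSpace

namespace Vale.Agent.P262.M2.Sys

variable {E : Type*} [NormedAddCommGroup E] [InnerProductSpace ℝ E] [FiniteDimensional ℝ E]
  [MeasurableSpace E] [BorelSpace E] (S : Sys E)

open Classical in
/-- potential before the star moves, counted labels of level `j` -/
noncomputable def SF (j : ℕ) : ℝ≥0∞ :=
  ∑ m ∈ Finset.range S.mT, if S.mv.IsStar m then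
    ∫⁻ x, iw (S.omj j m) x *
      S.PsiE (S.nd m x j) m x (S.F (S.nd m x j) m x) ∂stdGaussian E else 0

open Classical in
/-- potential after the star moves -/
noncomputable def SF' (j : ℕ) : ℝ≥0∞ :=
  ∑ m ∈ Finset.range S.mT, if S.mv.IsStar m then
    ∫⁻ x, iw (S.omj j m) x *
      S.PsiE (S.nd m x j) m x (S.F (S.nd m x j) (m + 1) x) ∂stdGaussian E else 0

end Vale.Agent.P262.M2.Sys
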