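import Vale.Agent.P262.H148.IntA
import Vale.Agent.P262.H148.SFd

/-!
# P262, milestone 2: (T1) integrated
-/

set_option linter.all false

open MeasureTheory ProbabilityTheory Set
open scoped ENNReal RealInnerProductSpace
open Vale.Agent.P262.H118 (Iv st en K2 El2 paths)
open Vale.Agent.P262.H148 (Psi)

namespace Vale.Agent.P262.M2.Sys

variable {E : Type*} [NormedAddCommGroup E] [InnerProductSpace ℝ E] [FiniteDimensional ℝ E]
  [MeasurableSpace E] [BorelSpace E] {S : Sys E} {j : ℕ} {x : E}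

/-! ### indicators -/

open Classical in
/-- inner moves of the counted blocks -/
lemma ac_inn_i (f : ℕ → ℝ) {m : ℕ} (hm : m < S.mT) :
    H148.ac (S.actP j x) (H148.inn (S.BP j x) (S.mT + 1) (S.omP j x) f) m =
      if x ∈ S.omj j m ∩ S.inn j m then f m else 0 := by
  unfold H148.ac H148.inn
  have h1 : (x ∈ S.omj j m ∩ S.inn j m) ↔ (S.actP j x m ∧ (S.omP j x m ∧ m + 1 ∉ S.BP j x ∧
      m + 1 < S.mT + 1)) := by
    rw [mem_inter_iff]
    have h2 : x ∈ S.omj j m ↔ (S.actP j x m ∧ S.omP j x m) := (act_om_iff_p).symm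
    have h3 : x ∈ S.inn j m ↔ m + 1 ∉ S.BP j x := inner_iff_p hm
    rw [h2, h3]
    constructor
    · rintro ⟨⟨a, b⟩, c⟩; exact ⟨a, b, c, by omega⟩
    · rintro ⟨a, b, c, -⟩; exact ⟨⟨a, b⟩, c⟩
  by_cases ha : S.actP j x m
  · rw [if_pos ha]
    by_cases hb : (S.omP j x m ∧ m + 1 ∉ S.BP j x ∧ m + 1 < S.mT + 1)
    · rw [if_pos hb, if_pos (h1.2 ⟨ha, hb⟩)]
    · rw [if_neg hb, if_neg fun h => hb (h1.1 h).2]
  · rw [if_neg ha, if_neg fun h => ha (h1.1 h).1]

open Classical in
lemma ac_inn_top_i (f : ℕ → ℝ) :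
    H148.ac (S.actP j x) (H148.inn (S.BP j x) (S.mT + 1) (S.omP j x) f) S.mT = 0 := by
  unfold H148.ac H148.inn
  split_ifs with h1 h2
  · omega
  · rfl
  · rfl

open Classical in
/-- ends of the counted blocks -/
lemma ac_ends_i {f : ℕ → ℝ} {m : ℕ} (hm : m ≤ S.mT) (hf : 0 ≤ f m) :
    H148.ac (S.actP j x) (H148.ends (S.BP j x) (S.mT + 1) (S.omP j x) f) m ≤
      if x ∈ S.omj j m ∩ S.edg j m then 2 * f m else 0 := by
  unfold H148.ac H148.ends H148.fst H148.lst
  have h2 : x ∈ S.omj j m ↔ (S.actP j x m ∧ S.omP j x m) := (act_om_iff_p).symm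
  have h3 : x ∈ S.edg j m ↔ (m ∈ S.BP j x ∨ (m + 1 ∈ S.BP j x ∨ m + 1 = S.mT + 1)) := by
    show (S.bs (S.nd m x j) m x = m ∨ S.be (S.nd m x j) m x = m) ↔ _
    rw [first_iff_p, last_iff_p hm]
  by_cases ha : S.actP j x m
  · rw [if_pos ha]
    by_cases ho : S.omP j x m
    · by_cases h4 : m ∈ S.BP j x
      · rw [if_pos (show S.omP j x m ∧ m ∈ S.BP j x from ⟨ho, h4⟩),
          if_pos (show x ∈ S.omj j m ∩ S.edg j m from ⟨h2.2 ⟨ha, ho⟩, h3.2 (Or.inl h4)⟩)]
        split_ifs
        · linarith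
        · linarith
      · rw [if_neg (show ¬ (S.omP j x m ∧ m ∈ S.BP j x) from fun h => h4 h.2), zero_add]
        split_ifs with h5 h6 h6
        · linarith
        · exact absurd (show x ∈ S.omj j m ∩ S.edg j m from
            ⟨h2.2 ⟨ha, ho⟩, h3.2 (Or.inr h5.2)⟩) h6
        · linarith
        · exact le_rfl
    · rw [if_neg (show ¬ (S.omP j x m ∧ m ∈ S.BP j x) from fun h => ho h.1),
        if_neg (show ¬ (S.omP j x m ∧ (m + 1 ∈ S.BP j x ∨ m + 1 = S.mT + 1)) from
          fun h => ho h.1), add_zero]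
      split_ifs
      · linarith
      · exact le_rfl
  · rw [if_neg ha]
    split_ifs
    · linarith
    · exact le_rfl

open Classical in
/-- entrances -/
lemma ac_flf_i {f : ℕ → ℝ} {m : ℕ} (hf : 0 ≤ f m) :
    H148.ac (S.actP j x) (H148.flf (S.lvP j x) f) m ≤
      if x ∈ S.NL j m ∩ S.OL j m ∩ {x | S.l0 (S.nd m x j) m = m} then f m else 0 := by
  unfold H148.ac H148.flf
  by_cases ha : S.actP j x m
  · rw [if_pos ha]
    by_cases h1 : m ∈ S.lvP j x
    · rw [if_pos h1, if_pos (show x ∈ S.NL j m ∩ S.OL j m ∩ {x | S.l0 (S.nd m x j) m = m} from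
        ⟨⟨ha.1, ha.2.1⟩, h1⟩)]
    · rw [if_neg h1]
      split_ifs
      · exact hf
      · exact le_rfl
  · rw [if_neg ha]
    split_ifs
    · exact hf
    · exact le_rfl

open Classical in
lemma ac_flf_top_i (f : ℕ → ℝ) :
    H148.ac (S.actP j x) (H148.flf (S.lvP j x) f) S.mT = 0 := by
  unfold H148.ac H148.flf
  rw [if_neg (mT_not_lv_i (S := S) (j := j) (x := x))]
  split_ifs <;> rfl

/-! ### the pointwise inequality -/

/-- change of the potential -/
noncomputable def QP (S : Sys E) (j : ℕ) (x : E) (m : ℕ) : ℝ :=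
  |Psi S.th (S.AP j x m) (S.FP j x (m + 1)) - Psi S.th (S.AP j x m) (S.FP j x m)|

/-- price of an end -/
noncomputable def eP (S : Sys E) (j : ℕ) (x : E) (m : ℕ) : ℝ :=
  H148.slope S.th (S.AP j x m) (S.DP j x m) * |S.FP j x m - S.DP j x m|

lemma eP_nonneg (m : ℕ) : 0 ≤ S.eP j x m :=
  mul_nonneg (H148.slope_pos (ENNReal.toReal_pos (S.A_pos _ _ _).ne' (S.A_ne_top _ _ _)) _).le
    (abs_nonneg _)

/-- closeness at a point -/
def clP (S : Sys E) (j : ℕ) (x : E) : Prop :=
  ∀ m, m ≤ S.mT → S.actP j x m → |S.FP j x m - S.DP j x m| ≤ S.AP j x m / 4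

lemma clP_of (hj : j < S.nl) (h : S.CLOSE) (x : E) : S.clP j x := by
  intro m hm ha
  have h1 := h j hj m hm x ha.2.2
  unfold FP DP AP
  have h2 := hf_eq_i (S := S) (S.nd m x j) m x
  rw [← h2] at h1
  have h3 : S.A (S.nd m x j) m x / 4 = ENNReal.ofReal ((S.A (S.nd m x j) m x).toReal / 4) := by
    rw [ENNReal.ofReal_div_of_pos (by norm_num), ENNReal.ofReal_toReal (S.A_ne_top _ _ _)]
    norm_num
  rw [h3] at h1
  exact (ENNReal.ofReal_le_ofReal_iff (by positivity)).1 h1

open Classical in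
/-- **(T1) at one point**, real numbers, with a general bound `br` for the brackets. -/
theorem T1_real (hj : j ≤ Module.finrank ℝ E) (hth1 : S.th ≤ 1 / 2) {et : ℝ} (het0 : 0 ≤ et)
    (hM4 : 4 ≤ S.M) (het : 1 ≤ et * ((S.M / 4) ^ (1 - S.th) - 2)) (hC : S.clP j x)
    {br : ℕ → ℝ} (hbr : ∀ s e, Iv (S.lvP j x) (S.mT + 1) s e → S.actP j x s →
      Psi S.th (S.AP j x s) (max (S.AP j x s) (S.DP j x s)) -
        Psi S.th (S.AP j x s) (max (S.AP j x s) (S.DP j x (e - 1))) ≤ br s) :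
    ∑ m ∈ Finset.range S.mT, (if x ∈ S.omj j m ∩ S.inn j m then
        (if S.mv.IsStar m then Psi S.th (S.AP j x m) (S.FP j x m) else 0) else 0) ≤
      ∑ m ∈ Finset.range S.mT, (if x ∈ S.omj j m ∩ S.inn j m then
        (if S.mv.IsStar m then Psi S.th (S.AP j x m) (S.FP j x (m + 1)) else 0) else 0) +
      ∑ m ∈ Finset.range (S.mT + 1), H148.ac (S.actP j x) (H148.flf (S.lvP j x) br) m +
      ∑ m ∈ Finset.range (S.mT + 1), (if x ∈ S.omj j m ∩ S.edg j m then 4 * S.eP j x m else 0) +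
      (1 + et) * ∑ m ∈ Finset.range S.mT, (if x ∈ S.omj j m ∩ S.inn j m then
        (if S.mv.IsStar m then 0 else S.QP j x m) else 0) +
      et * ∑ m ∈ Finset.range S.mT, (if x ∈ S.omj j m ∩ S.inn j m then
        (if S.mv.IsStar m then S.QP j x m else 0) else 0) := by
  have h4 : S.M / 2 / 2 = S.M / 4 := by ring
  have key := (ptH' (S := S) (j := j) (x := x) (Q := S.QP j x) hj hC
    (fun m _ _ _ _ => le_rfl)).star_sum (star := S.mv.IsStar) S.hth.le hth1 (by linarith)
    het0 (by rw [h4]; exact het) hbr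
  rw [Finset.sum_range_succ, ac_inn_top_i, add_zero] at key
  rw [Finset.sum_range_succ (f := fun m => H148.ac (S.actP j x)
    (H148.inn (S.BP j x) (S.mT + 1) (S.omP j x) (S.QP j x)) m), ac_inn_top_i, add_zero] at key
  have e1 : ∑ m ∈ Finset.range S.mT, H148.ac (S.actP j x) (H148.inn (S.BP j x) (S.mT + 1)
      (S.omP j x) fun m => if S.mv.IsStar m then H148.dPsi S.th (S.AP j x) (S.FP j x) m
        else - S.QP j x m) m =
      ∑ m ∈ Finset.range S.mT, (if x ∈ S.omj j m ∩ S.inn j m then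
        (if S.mv.IsStar m then Psi S.th (S.AP j x m) (S.FP j x m) else 0) else 0) -
      ∑ m ∈ Finset.range S.mT, (if x ∈ S.omj j m ∩ S.inn j m then
        (if S.mv.IsStar m then Psi S.th (S.AP j x m) (S.FP j x (m + 1)) else 0) else 0) -
      ∑ m ∈ Finset.range S.mT, (if x ∈ S.omj j m ∩ S.inn j m then
        (if S.mv.IsStar m then 0 else S.QP j x m) else 0) := by
    rw [← Finset.sum_sub_distrib, ← Finset.sum_sub_distrib]
    refine Finset.sum_congr rfl fun m hm => ?_
    rw [ac_inn_i _ (Finset.mem_range.1 hm)]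
    unfold H148.dPsi
    split_ifs <;> ring
  have e2 : ∑ m ∈ Finset.range S.mT, H148.ac (S.actP j x)
      (H148.inn (S.BP j x) (S.mT + 1) (S.omP j x) (S.QP j x)) m =
      ∑ m ∈ Finset.range S.mT, (if x ∈ S.omj j m ∩ S.inn j m then
        (if S.mv.IsStar m then 0 else S.QP j x m) else 0) +
      ∑ m ∈ Finset.range S.mT, (if x ∈ S.omj j m ∩ S.inn j m then
        (if S.mv.IsStar m then S.QP j x m else 0) else 0) := by
    rw [← Finset.sum_add_distrib]
    refine Finset.sum_congr rfl fun m hm => ?_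
    rw [ac_inn_i _ (Finset.mem_range.1 hm)]
    split_ifs <;> ring
  have e3 : ∑ m ∈ Finset.range (S.mT + 1), H148.ac (S.actP j x) (H148.ends (S.BP j x) (S.mT + 1)
        (S.omP j x) (H148.cvA S.th (S.AP j x) (S.DP j x)
          fun m => |S.FP j x m - S.DP j x m|)) m ≤
      ∑ m ∈ Finset.range (S.mT + 1), (if x ∈ S.omj j m ∩ S.edg j m then 4 * S.eP j x m
        else 0) := by
    refine Finset.sum_le_sum fun m hm => ?_
    have hm' : m ≤ S.mT := by have := Finset.mem_range.1 hm; omega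
    have h0 := eP_nonneg (S := S) (j := j) (x := x) m
    have e4 : H148.cvA S.th (S.AP j x) (S.DP j x) (fun m => |S.FP j x m - S.DP j x m|) m =
        2 * S.eP j x m := rfl
    refine (ac_ends_i hm' (by rw [e4]; linarith)).trans ?_
    rw [e4]
    split_ifs
    · linarith
    · exact le_rfl
  rw [e1, e2] at key
  nlinarith [key, e3]

/-! ### ENNReal form -/

lemma iw_mul_ofReal_i (s : Set E) (x : E) (v : ℝ) [Decidable (x ∈ s)] :
    ENNReal.ofReal (if x ∈ s then v else 0) = iw s x * ENNReal.ofReal v := by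
  unfold iw
  by_cases h : x ∈ s
  · rw [if_pos h, indicator_of_mem h]; simp
  · rw [if_neg h, indicator_of_notMem h]; simp

lemma nd_succ_inn_i {m : ℕ} (hm : m < S.mT) (h : x ∈ S.inn j m) :
    S.nd (m + 1) x j = S.nd m x j := by
  have ht : S.mv.tm m < S.T := tm_lt_p hm.le
  have h2 : S.Same (S.BB (S.nd m x j) m x) m (m + 1) := same_succ ht h
  exact nd_same_p ht (h2.mono (nw_sub_BB _ _ _) (S.K.zero_mem_nw _) ht)

open Classical in
lemma star_term_i {m : ℕ} (hm : m < S.mT) (v : ℝ) :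
    ENNReal.ofReal (if x ∈ S.omj j m ∩ S.inn j m then (if S.mv.IsStar m then v else 0) else 0) =
      if S.mv.IsStar m then iw (S.omj j m) x * ENNReal.ofReal v else 0 := by
  by_cases hs : S.mv.IsStar m
  · rw [if_pos hs, if_pos hs]
    have h1 : (x ∈ S.omj j m ∩ S.inn j m) ↔ x ∈ S.omj j m :=
      ⟨fun h => h.1, fun h => ⟨h, inn_of_active_i hm (Or.inl hs) x⟩⟩
    rw [← iw_mul_ofReal_i]
    simp only [h1]
  · rw [if_neg hs, if_neg hs, ite_self, ENNReal.ofReal_zero]

/-- the change of the potential is paid by the price of the move -/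
lemma QP_le_i {G : List ℕ → ℕ → E → ℝ≥0∞} (hj : j < S.nl) (hM : S.MOVE G) (hth1 : S.th ≤ 1 / 2)
    {m : ℕ} (hm : m < S.mT) (hx : x ∈ S.omj j m ∩ S.inn j m) :
    ENNReal.ofReal (S.QP j x m) ≤ 2 * (S.sw (S.nd m x j) m x * G (S.nd m x j) m x) := by
  have hnd := nd_succ_inn_i hm hx.2
  have hact : S.actP j x m := ((act_om_iff_p).2 hx.1).1
  have hA8 : S.AP j x m ≤ 1 / 8 := by
    have hb0 : 0 ≤ S.b0 := S.hA0.le.trans S.hAb
    have h1 : S.AP j x m ≤ S.b0 := ENNReal.toReal_le_of_le_ofReal hb0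
      (S.A_le_of_not_Z hact.2.2)
    have h2 := S.hMb
    have h3 := S.hM
    nlinarith
  have hA : 0 < S.AP j x m := ENNReal.toReal_pos (S.A_pos _ _ _).ne' (S.A_ne_top _ _ _)
  have h1 := H148.abs_Psi_le_max (th := S.th) S.hth.le hth1 hA hA8 (x := S.FP j x m)
    (y := S.FP j x (m + 1)) ENNReal.toReal_nonneg ENNReal.toReal_nonneg
  have h2 : S.FP j x (m + 1) = (S.F (S.nd m x j) (m + 1) x).toReal := by
    unfold FP; rw [hnd]
  have h3 := hM j hj m hm x hx
  have h4 : ENNReal.ofReal |S.FP j x (m + 1) - S.FP j x m| ≤ G (S.nd m x j) m x := by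
    rw [h2]
    exact ofReal_abs_sub_le_i (F_ne_top_i _ _ _) (F_ne_top_i _ _ _) h3.2 h3.1
  unfold QP
  refine (ENNReal.ofReal_le_ofReal h1).trans ?_
  rw [ENNReal.ofReal_mul (by norm_num), ENNReal.ofReal_mul (H148.slope_pos hA _).le]
  have h5 : ENNReal.ofReal (H148.slope S.th (S.AP j x m)
      (max (S.FP j x m) (S.FP j x (m + 1)))) = S.sw (S.nd m x j) m x := by
    rw [h2]; exact sw_eq_i _ _ _
  rw [h5]
  have h6 : ENNReal.ofReal (2 : ℝ) = 2 := by norm_num
  rw [h6]
  gcongr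

lemma eP_eq_i (m : ℕ) : ENNReal.ofReal (S.eP j x m) =
    S.slp (S.nd m x j) m x (S.De (S.nd m x j) m x) * S.hf (S.nd m x j) m x := by
  unfold eP
  have hA : 0 < S.AP j x m := ENNReal.toReal_pos (S.A_pos _ _ _).ne' (S.A_ne_top _ _ _)
  rw [ENNReal.ofReal_mul (H148.slope_pos hA _).le, slp_eq (De_ne_top_p _ _ _)]
  congr 1
  exact hf_eq_i _ _ _

open Classical in
/-- **(T1) at one point**, ENNReal form, with the brackets `br` -/
theorem T1_ennreal {G : List ℕ → ℕ → E → ℝ≥0∞} (hj : j < S.nl) (hM : S.MOVE G) (hCl : S.CLOSE)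
    (hth1 : S.th ≤ 1 / 2) {et : ℝ} (het0 : 0 ≤ et) (hM4 : 4 ≤ S.M)
    (het : 1 ≤ et * ((S.M / 4) ^ (1 - S.th) - 2))
    {br : ℕ → ℝ} (hbr : ∀ s e, Iv (S.lvP j x) (S.mT + 1) s e → S.actP j x s →
      Psi S.th (S.AP j x s) (max (S.AP j x s) (S.DP j x s)) -
        Psi S.th (S.AP j x s) (max (S.AP j x s) (S.DP j x (e - 1))) ≤ br s) :
    ∑ m ∈ Finset.range S.mT, (if S.mv.IsStar m then iw (S.omj j m) x *
        S.PsiE (S.nd m x j) m x (S.F (S.nd m x j) m x) else 0) ≤
      ∑ m ∈ Finset.range S.mT, (if S.mv.IsStar m then iw (S.omj j m) x *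
        S.PsiE (S.nd m x j) m x (S.F (S.nd m x j) (m + 1) x) else 0) +
      ENNReal.ofReal (∑ m ∈ Finset.range (S.mT + 1),
        H148.ac (S.actP j x) (H148.flf (S.lvP j x) br) m) +
      4 * ∑ m ∈ Finset.range (S.mT + 1), iw (S.omj j m ∩ S.edg j m) x *
        (S.slp (S.nd m x j) m x (S.De (S.nd m x j) m x) * S.hf (S.nd m x j) m x) +
      ENNReal.ofReal (2 * (1 + et)) * ∑ m ∈ Finset.range S.mT, (if S.mv.IsStar m then 0 else
        iw (S.omj j m ∩ S.inn j m) x * (S.sw (S.nd m x j) m x * G (S.nd m x j) m x)) +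
      ENNReal.ofReal (2 * et) * ∑ m ∈ Finset.range S.mT, (if S.mv.IsStar m then
        iw (S.omj j m) x * (S.sw (S.nd m x j) m x * G (S.nd m x j) m x) else 0) := by
  have key := T1_real (S := S) (j := j) (x := x) hj.le hth1 het0 hM4 het (clP_of hj hCl x) hbr
  have hPn : ∀ m y, 0 ≤ y → 0 ≤ Psi S.th (S.AP j x m) y := fun m y hy => Psi_nonneg hy
  have hP1 : ∀ m, 0 ≤ (if x ∈ S.omj j m ∩ S.inn j m then
        (if S.mv.IsStar m then Psi S.th (S.AP j x m) (S.FP j x m) else 0) else 0) := fun m => by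
    split_ifs
    · exact hPn _ _ ENNReal.toReal_nonneg
    · exact le_rfl
    · exact le_rfl
  have hP2 : ∀ m, 0 ≤ (if x ∈ S.omj j m ∩ S.inn j m then
        (if S.mv.IsStar m then Psi S.th (S.AP j x m) (S.FP j x (m + 1)) else 0) else 0) :=
    fun m => by
    split_ifs
    · exact hPn _ _ ENNReal.toReal_nonneg
    · exact le_rfl
    · exact le_rfl
  have hP3 : ∀ m, 0 ≤ (if x ∈ S.omj j m ∩ S.edg j m then 4 * S.eP j x m else 0) := fun m => by
    have := eP_nonneg (S := S) (j := j) (x := x) m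
    split_ifs
    · linarith
    · exact le_rfl
  have hP4 : ∀ m, 0 ≤ (if x ∈ S.omj j m ∩ S.inn j m then
        (if S.mv.IsStar m then 0 else S.QP j x m) else 0) := fun m => by
    split_ifs
    · exact le_rfl
    · exact abs_nonneg _
    · exact le_rfl
  have hP5 : ∀ m, 0 ≤ (if x ∈ S.omj j m ∩ S.inn j m then
        (if S.mv.IsStar m then S.QP j x m else 0) else 0) := fun m => by
    split_ifs
    · exact abs_nonneg _
    · exact le_rfl
    · exact le_rfl
  have k1 := ENNReal.ofReal_le_ofReal key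
  rw [ENNReal.ofReal_sum_of_nonneg fun m _ => hP1 m] at k1
  have e1 : ∑ m ∈ Finset.range S.mT, (if S.mv.IsStar m then iw (S.omj j m) x *
        S.PsiE (S.nd m x j) m x (S.F (S.nd m x j) m x) else 0) =
      ∑ m ∈ Finset.range S.mT, ENNReal.ofReal (if x ∈ S.omj j m ∩ S.inn j m then
        (if S.mv.IsStar m then Psi S.th (S.AP j x m) (S.FP j x m) else 0) else 0) := by
    refine Finset.sum_congr rfl fun m hm => ?_
    rw [star_term_i (Finset.mem_range.1 hm)]
    rfl
  rw [e1]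
  refine k1.trans ?_
  refine (ENNReal.ofReal_add_le).trans (add_le_add ((ENNReal.ofReal_add_le).trans
    (add_le_add ((ENNReal.ofReal_add_le).trans (add_le_add ((ENNReal.ofReal_add_le).trans
      (add_le_add ?_ le_rfl)) ?_)) ?_)) ?_)
  · -- potential after the stars
    rw [ENNReal.ofReal_sum_of_nonneg fun m _ => hP2 m]
    refine Finset.sum_le_sum fun m hm => ?_
    have hm' := Finset.mem_range.1 hm
    rw [star_term_i hm']
    by_cases hs : S.mv.IsStar m
    · rw [if_pos hs, if_pos hs]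
      refine le_of_eq ?_
      congr 1
      rw [PsiE_eq]
      unfold FP AP
      rw [nd_succ_inn_i hm' (inn_of_active_i hm' (Or.inl hs) x)]
    · rw [if_neg hs, if_neg hs]
  · -- ends
    rw [ENNReal.ofReal_sum_of_nonneg fun m _ => hP3 m, Finset.mul_sum]
    refine Finset.sum_le_sum fun m hm => ?_
    rw [iw_mul_ofReal_i, ENNReal.ofReal_mul (by norm_num), eP_eq_i]
    have h6 : ENNReal.ofReal (4 : ℝ) = 4 := by norm_num
    rw [h6]
    refine le_of_eq ?_
    ring
  · -- other moves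
    rw [ENNReal.ofReal_mul (by linarith), ENNReal.ofReal_sum_of_nonneg fun m _ => hP4 m,
      Finset.mul_sum, Finset.mul_sum]
    refine Finset.sum_le_sum fun m hm => ?_
    have hm' := Finset.mem_range.1 hm
    by_cases hx : x ∈ S.omj j m ∩ S.inn j m
    · rw [if_pos hx]
      by_cases hs : S.mv.IsStar m
      · rw [if_pos hs, if_pos hs]; simp
      · rw [if_neg hs, if_neg hs]
        unfold iw
        rw [indicator_of_mem hx]
        have h1 := QP_le_i hj hM hth1 hm' hx
        rw [mul_comm (2 : ℝ), ENNReal.ofReal_mul (by linarith)]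
        have h6 : ENNReal.ofReal (2 : ℝ) = 2 := by norm_num
        rw [h6, mul_assoc]
        gcongr
        simpa using h1
    · rw [if_neg hx]; simp
  · -- stars
    rw [ENNReal.ofReal_mul het0, ENNReal.ofReal_sum_of_nonneg fun m _ => hP5 m,
      Finset.mul_sum, Finset.mul_sum]
    refine Finset.sum_le_sum fun m hm => ?_
    have hm' := Finset.mem_range.1 hm
    by_cases hx : x ∈ S.omj j m ∩ S.inn j m
    · rw [if_pos hx]
      by_cases hs : S.mv.IsStar m
      · rw [if_pos hs, if_pos hs]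
        unfold iw
        rw [indicator_of_mem hx.1]
        have h1 := QP_le_i hj hM hth1 hm' hx
        rw [mul_comm (2 : ℝ), ENNReal.ofReal_mul het0]
        have h6 : ENNReal.ofReal (2 : ℝ) = 2 := by norm_num
        rw [h6, mul_assoc]
        gcongr
        simpa using h1
      · rw [if_neg hs, if_neg hs]; simp
    · rw [if_neg hx]; simp

open Classical in
/-- the brackets of the lives are paid by the entrances -/
lemma br_le_i :
    ENNReal.ofReal (∑ m ∈ Finset.range (S.mT + 1), H148.ac (S.actP j x)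
        (H148.flf (S.lvP j x) fun s => 20 * (S.ent (S.nd s x j) s x).toReal) m) ≤
      20 * ∑ m ∈ Finset.range S.mT, iw (S.NL j m ∩ S.OL j m ∩
        {x | S.l0 (S.nd m x j) m = m}) x * S.ent (S.nd m x j) m x := by
  rw [Finset.sum_range_succ, ac_flf_top_i, add_zero]
  have h0 : ∀ m, 0 ≤ 20 * (S.ent (S.nd m x j) m x).toReal := fun m => by
    have : 0 ≤ (S.ent (S.nd m x j) m x).toReal := ENNReal.toReal_nonneg
    linarith
  have h1 : ∑ m ∈ Finset.range S.mT, H148.ac (S.actP j x)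
        (H148.flf (S.lvP j x) fun s => 20 * (S.ent (S.nd s x j) s x).toReal) m ≤
      ∑ m ∈ Finset.range S.mT, (if x ∈ S.NL j m ∩ S.OL j m ∩ {x | S.l0 (S.nd m x j) m = m}
        then 20 * (S.ent (S.nd m x j) m x).toReal else 0) :=
    Finset.sum_le_sum fun m _ => ac_flf_i (h0 m)
  refine (ENNReal.ofReal_le_ofReal h1).trans ?_
  rw [ENNReal.ofReal_sum_of_nonneg fun m _ => by split_ifs; exacts [h0 m, le_rfl],
    Finset.mul_sum]
  refine Finset.sum_le_sum fun m _ => ?_
  rw [iw_mul_ofReal_i, ENNReal.ofReal_mul (by norm_num), ENNReal.ofReal_toReal (ent_ne_top_p _ _ _)]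
  have h6 : ENNReal.ofReal (20 : ℝ) = 20 := by norm_num
  rw [h6]
  exact le_of_eq (by ring)

/-! ### measurability of the integrands -/

lemma meas_pot_i (j m k : ℕ) : Measurable fun x => iw (S.omj j m) x *
    S.PsiE (S.nd m x j) m x (S.F (S.nd m x j) k x) :=
  (iw_meas (measurableSet_omj_i j m)).mul
    (measurable_nd (S := S) m j (F := fun r x => S.PsiE r m x (S.F r k x)) fun r =>
      PsiE_meas_i r m (F_meas r k))

lemma meas_slp_i (p : List ℕ) (m : ℕ) {f : E → ℝ≥0∞} (hf : Measurable f) :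
    Measurable fun x => S.slp p m x (f x) := by
  unfold slp
  exact ((S.A_meas p m).div ((S.A_meas p m).max (hf.min measurable_const))).pow_const _

lemma meas_sw_i (p : List ℕ) (m : ℕ) : Measurable (S.sw p m) :=
  meas_slp_i p m ((F_meas p m).max (F_meas p (m + 1)))

lemma meas_hf_i (p : List ℕ) (m : ℕ) : Measurable (S.hf p m) :=
  ((F_meas p m).sub (S.De_meas p m)).add ((S.De_meas p m).sub (F_meas p m))

lemma meas_end_i (j m : ℕ) : Measurable fun x => iw (S.omj j m ∩ S.edg j m) x *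
    (S.slp (S.nd m x j) m x (S.De (S.nd m x j) m x) * S.hf (S.nd m x j) m x) :=
  (iw_meas ((measurableSet_omj_i j m).inter (measurableSet_edg_i j m))).mul
    (measurable_nd (S := S) m j (F := fun r x => S.slp r m x (S.De r m x) * S.hf r m x) fun r =>
      (meas_slp_i r m (S.De_meas r m)).mul (meas_hf_i r m))

lemma meas_prc_i {G : List ℕ → ℕ → E → ℝ≥0∞} (hG : ∀ p m, Measurable (G p m)) {s : Set E}
    (hs : MeasurableSet s) (j m : ℕ) : Measurable fun x => iw s x *
      (S.sw (S.nd m x j) m x * G (S.nd m x j) m x) :=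
  (iw_meas hs).mul (measurable_nd (S := S) m j (F := fun r x => S.sw r m x * G r m x) fun r =>
    (meas_sw_i r m).mul (hG r m))

lemma meas_q1_i (p : List ℕ) (m : ℕ) : Measurable (S.ent p m) := by
  unfold ent
  exact (S.As_meas _ p m).mul ((((S.A_meas p m).max (S.De_meas p m)).pow_const _).min
    (S.q_meas p _))

lemma meas_ent_i (j m : ℕ) : Measurable fun x => iw (S.NL j m ∩ S.OL j m ∩
    {x | S.l0 (S.nd m x j) m = m}) x * S.ent (S.nd m x j) m x :=
  (iw_meas (((measurableSet_NL j m).inter (measurableSet_OL j m)).inter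
    (measurableSet_l0_i j m))).mul
    (measurable_nd (S := S) m j (F := fun r x => S.ent r m x) fun r => meas_q1_i r m)

open Classical in
lemma int_if_i (P : Prop) (f : E → ℝ≥0∞) :
    ∫⁻ x, (if P then f x else 0) ∂stdGaussian E = if P then ∫⁻ x, f x ∂stdGaussian E else 0 := by
  by_cases h : P
  · simp only [if_pos h]
  · simp only [if_neg h]; rw [lintegral_zero]

open Classical in
lemma int_if'_i (P : Prop) (f : E → ℝ≥0∞) :
    ∫⁻ x, (if P then 0 else f x) ∂stdGaussian E = if P then 0 else ∫⁻ x, f x ∂stdGaussian E := by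
  by_cases h : P
  · simp only [if_pos h]; rw [lintegral_zero]
  · simp only [if_neg h]

lemma int_five_i {f1 f2 f3 f4 f5 : E → ℝ≥0∞} (h1 : Measurable f1) (h2 : Measurable f2)
    (h3 : Measurable f3) (h4 : Measurable f4) :
    ∫⁻ x, (f1 x + f2 x + f3 x + f4 x + f5 x) ∂stdGaussian E =
      ∫⁻ x, f1 x ∂stdGaussian E + ∫⁻ x, f2 x ∂stdGaussian E + ∫⁻ x, f3 x ∂stdGaussian E +
        ∫⁻ x, f4 x ∂stdGaussian E + ∫⁻ x, f5 x ∂stdGaussian E := by
  rw [lintegral_add_left (f := fun x => f1 x + f2 x + f3 x + f4 x)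
      (((h1.add h2).add h3).add h4),
    lintegral_add_left (f := fun x => f1 x + f2 x + f3 x) ((h1.add h2).add h3),
    lintegral_add_left (f := fun x => f1 x + f2 x) (h1.add h2), lintegral_add_left h1]

open Classical in
/-- integration of the pointwise inequality, with an arbitrary measurable bound `B` of the
brackets -/
theorem int_T1_aux {G : List ℕ → ℕ → E → ℝ≥0∞} (hG : ∀ p m, Measurable (G p m)) {et : ℝ}
    {B L : E → ℝ≥0∞} (hB : Measurable B) {j : ℕ}
    (h : ∀ x, L x + ∑ m ∈ Finset.range S.mT, (if S.mv.IsStar m then iw (S.omj j m) x *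
        S.PsiE (S.nd m x j) m x (S.F (S.nd m x j) m x) else 0) ≤
      ∑ m ∈ Finset.range S.mT, (if S.mv.IsStar m then iw (S.omj j m) x *
        S.PsiE (S.nd m x j) m x (S.F (S.nd m x j) (m + 1) x) else 0) + B x +
      4 * ∑ m ∈ Finset.range (S.mT + 1), iw (S.omj j m ∩ S.edg j m) x *
        (S.slp (S.nd m x j) m x (S.De (S.nd m x j) m x) * S.hf (S.nd m x j) m x) +
      ENNReal.ofReal (2 * (1 + et)) * ∑ m ∈ Finset.range S.mT, (if S.mv.IsStar m then 0 else
        iw (S.omj j m ∩ S.inn j m) x * (S.sw (S.nd m x j) m x * G (S.nd m x j) m x)) +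
      ENNReal.ofReal (2 * et) * ∑ m ∈ Finset.range S.mT, (if S.mv.IsStar m then
        iw (S.omj j m) x * (S.sw (S.nd m x j) m x * G (S.nd m x j) m x) else 0)) :
    ∫⁻ x, L x ∂stdGaussian E + S.SF j ≤ S.SF' j + ∫⁻ x, B x ∂stdGaussian E + 4 * S.Et j +
      ENNReal.ofReal (2 * (1 + et)) * (∑ m ∈ Finset.range S.mT,
        if S.mv.IsStar m then 0 else S.Pt G j m) + ENNReal.ofReal (2 * et) * S.Rt G j := by
  have ha : ∀ m ∈ Finset.range S.mT, Measurable fun x => (if S.mv.IsStar m then iw (S.omj j m) x *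
        S.PsiE (S.nd m x j) m x (S.F (S.nd m x j) (m + 1) x) else 0) := fun m _ => by
    by_cases hs : S.mv.IsStar m
    · simp only [if_pos hs]; exact meas_pot_i j m (m + 1)
    · simp only [if_neg hs]; exact measurable_const
  have hc : ∀ m ∈ Finset.range (S.mT + 1), Measurable fun x => iw (S.omj j m ∩ S.edg j m) x *
        (S.slp (S.nd m x j) m x (S.De (S.nd m x j) m x) * S.hf (S.nd m x j) m x) :=
    fun m _ => meas_end_i j m
  have hd : ∀ m ∈ Finset.range S.mT, Measurable fun x => (if S.mv.IsStar m then 0 else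
        iw (S.omj j m ∩ S.inn j m) x * (S.sw (S.nd m x j) m x * G (S.nd m x j) m x)) :=
    fun m _ => by
    by_cases hs : S.mv.IsStar m
    · simp only [if_pos hs]; exact measurable_const
    · simp only [if_neg hs]
      exact meas_prc_i hG ((measurableSet_omj_i j m).inter (measurableSet_inn_i j m)) j m
  have he : ∀ m ∈ Finset.range S.mT, Measurable fun x => (if S.mv.IsStar m then
        iw (S.omj j m) x * (S.sw (S.nd m x j) m x * G (S.nd m x j) m x) else 0) :=
    fun m _ => by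
    by_cases hs : S.mv.IsStar m
    · simp only [if_pos hs]; exact meas_prc_i hG (measurableSet_omj_i j m) j m
    · simp only [if_neg hs]; exact measurable_const
  have ha' : Measurable fun x => ∑ m ∈ Finset.range S.mT, (if S.mv.IsStar m then
        iw (S.omj j m) x * S.PsiE (S.nd m x j) m x (S.F (S.nd m x j) (m + 1) x) else 0) :=
    Finset.measurable_sum (Finset.range S.mT) ha
  have hc' : Measurable fun x => (4 : ℝ≥0∞) * ∑ m ∈ Finset.range (S.mT + 1),
        iw (S.omj j m ∩ S.edg j m) x *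
        (S.slp (S.nd m x j) m x (S.De (S.nd m x j) m x) * S.hf (S.nd m x j) m x) :=
    (Finset.measurable_sum (Finset.range (S.mT + 1)) hc).const_mul (4 : ℝ≥0∞)
  have hd' : Measurable fun x => ENNReal.ofReal (2 * (1 + et)) * ∑ m ∈ Finset.range S.mT,
        (if S.mv.IsStar m then 0 else
        iw (S.omj j m ∩ S.inn j m) x * (S.sw (S.nd m x j) m x * G (S.nd m x j) m x)) :=
    (Finset.measurable_sum (Finset.range S.mT) hd).const_mul (ENNReal.ofReal (2 * (1 + et)))
  have hL : ∫⁻ x, L x ∂stdGaussian E + S.SF j ≤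
      ∫⁻ x, (L x + ∑ m ∈ Finset.range S.mT, (if S.mv.IsStar m then iw (S.omj j m) x *
        S.PsiE (S.nd m x j) m x (S.F (S.nd m x j) m x) else 0)) ∂stdGaussian E := by
    refine le_trans (add_le_add le_rfl ?_) (le_lintegral_add _ _)
    unfold SF
    have e1 : ∀ m ∈ Finset.range S.mT, (if S.mv.IsStar m then ∫⁻ x, iw (S.omj j m) x *
        S.PsiE (S.nd m x j) m x (S.F (S.nd m x j) m x) ∂stdGaussian E else 0) =
        ∫⁻ x, (if S.mv.IsStar m then iw (S.omj j m) x *
        S.PsiE (S.nd m x j) m x (S.F (S.nd m x j) m x) else 0) ∂stdGaussian E :=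
      fun m _ => (int_if_i _ _).symm
    rw [Finset.sum_congr rfl e1]
    exact sum_lintegral_le _ _ _
  refine hL.trans ((lintegral_mono h).trans ?_)
  rw [int_five_i ha' hB hc' hd', lintegral_finset_sum _ ha,
    lintegral_const_mul' _ _ (by norm_num), lintegral_finset_sum _ hc,
    lintegral_const_mul' _ _ ENNReal.ofReal_ne_top, lintegral_finset_sum _ hd,
    lintegral_const_mul' _ _ ENNReal.ofReal_ne_top, lintegral_finset_sum _ he]
  simp only [int_if_i, int_if'_i]
  exact le_rfl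

open Classical in
/-- prices with the constants of (T1) -/
lemma It_bound_i {G : List ℕ → ℕ → E → ℝ≥0∞} {et : ℝ} (het1 : et ≤ 1) (j : ℕ) :
    4 * S.Et j + ENNReal.ofReal (2 * (1 + et)) * (∑ m ∈ Finset.range S.mT,
        if S.mv.IsStar m then 0 else S.Pt G j m) ≤ 4 * S.It G j := by
  have h1 : ENNReal.ofReal (2 * (1 + et)) ≤ 4 := by
    have h2 : ENNReal.ofReal (4 : ℝ) = 4 := by norm_num
    rw [← h2]
    exact ENNReal.ofReal_le_ofReal (by linarith)
  have e1 : S.It G j = (∑ m ∈ Finset.range S.mT, if S.mv.IsStar m then 0 else S.Pt G j m) +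
      S.Et j := rfl
  rw [e1, mul_add (4 : ℝ≥0∞), add_comm (4 * S.Et j)]
  exact add_le_add (mul_le_mul' h1 le_rfl) le_rfl

/-- **(T1) integrated** -/
theorem int_T1 {G : List ℕ → ℕ → E → ℝ≥0∞} (hG : ∀ p m, Measurable (G p m)) {j : ℕ}
    (hj : j < S.nl) (hM : S.MOVE G) (hCl : S.CLOSE) (hth1 : S.th ≤ 1 / 2) {et : ℝ}
    (het0 : 0 ≤ et) (het1 : et ≤ 1) (hM4 : 4 ≤ S.M)
    (het : 1 ≤ et * ((S.M / 4) ^ (1 - S.th) - 2)) :
    S.SF j ≤ S.SF' j + 20 * S.Bt j + 4 * S.It G j + ENNReal.ofReal (2 * et) * S.Rt G j := by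
  classical
  have h := int_T1_aux (S := S) hG (et := et) (L := fun _ => 0)
    (B := fun x => 20 * ∑ m ∈ Finset.range S.mT, iw (S.NL j m ∩ S.OL j m ∩
        {x | S.l0 (S.nd m x j) m = m}) x * S.ent (S.nd m x j) m x)
    ((Finset.measurable_sum _ fun m _ => meas_ent_i j m).const_mul _) (j := j) fun x => by
      have h1 := T1_ennreal (S := S) (x := x) hj hM hCl hth1 het0 hM4 het
        (br := fun s => 20 * (S.ent (S.nd s x j) s x).toReal)
        fun s e hiv ha => bracket_p hth1 hiv ha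
      rw [zero_add]
      refine h1.trans ?_
      gcongr
      exact br_le_i
  rw [lintegral_zero, zero_add, lintegral_const_mul' _ _ (by norm_num),
    lintegral_finset_sum _ fun m _ => meas_ent_i j m] at h
  refine h.trans ?_
  have h2 := It_bound_i (S := S) (G := G) het1 j
  have h3 : ∑ m ∈ Finset.range S.mT, ∫⁻ x, iw (S.NL j m ∩ S.OL j m ∩
        {x | S.l0 (S.nd m x j) m = m}) x * S.ent (S.nd m x j) m x ∂stdGaussian E = S.Bt j := rfl
  rw [h3]
  calc S.SF' j + 20 * S.Bt j + 4 * S.Et j + ENNReal.ofReal (2 * (1 + et)) *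
        (∑ m ∈ Finset.range S.mT, if S.mv.IsStar m then 0 else S.Pt G j m) +
        ENNReal.ofReal (2 * et) * S.Rt G j
      = S.SF' j + 20 * S.Bt j + (4 * S.Et j + ENNReal.ofReal (2 * (1 + et)) *
        (∑ m ∈ Finset.range S.mT, if S.mv.IsStar m then 0 else S.Pt G j m)) +
        ENNReal.ofReal (2 * et) * S.Rt G j := by ring
    _ ≤ _ := by gcongr

end Vale.Agent.P262.M2.Sys
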