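import Vale.Agent.P262.H118.K1a
import Vale.Agent.P262.H148.Psi

/-!
# P262, milestone 2: the accounting of one label during one life

States `s, .., e - 1`, `B` = starting points of the blocks of the label, `om` = counted, `star` = star
moves, `D` plain deficit, `F` mass of the nested field, `r` star activity, `P` price of the other
moves, `h` = bound of `|F - D|`.
-/

namespace Vale.Agent.P262.H148

open Finset Vale.Agent.P262.H118

/-- telescoping over the blocks of `[s, e)`. -/
lemma tel_flat {B : Set ℕ} {s e : ℕ} (hs : s ∈ B) (hse : s < e) {g Φ : ℕ → ℝ}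
    (h : ∀ a b, Iv B e a b → s ≤ a → ∑ m ∈ Ico a b, g m ≤ Φ a - Φ b) :
    ∑ m ∈ Ico s e, g m ≤ Φ s - Φ e := by
  suffices H : ∀ n s, e - s = n → s ∈ B → s < e →
      (∀ a b, Iv B e a b → s ≤ a → ∑ m ∈ Ico a b, g m ≤ Φ a - Φ b) →
      ∑ m ∈ Ico s e, g m ≤ Φ s - Φ e from H _ s rfl hs hse h
  intro n
  induction n using Nat.strong_induction_on with
  | _ n ih =>
  intro s hn hs hse h
  have hiv := iv_en hs hse
  obtain ⟨-, h2, h3, h4, h5⟩ := hiv
  set b := en B e s with hb
  have h6 := h s b (iv_en hs hse) le_rfl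
  rcases h3.eq_or_lt with h7 | h7
  · rw [h7] at h6; exact h6
  · have h8 : b ∈ B := by
      rcases h4 with h8 | h8
      · exact h8
      · omega
    have h9 := ih (e - b) (by omega) b rfl h8 h7 fun a c h10 h11 => h a c h10 (by omega)
    rw [← sum_Ico_consecutive g h2.le h3]
    linarith

section flat

variable {B : Set ℕ} {e a b : ℕ}

open Classical in
/-- inner moves of a block. -/
lemma sum_inner_flat (h : Iv B e a b) {om : ℕ → Prop}
    (hom : ∀ m, a ≤ m → m < b → (om m ↔ om a)) (f : ℕ → ℝ) :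
    ∑ m ∈ Ico a b, (if om m ∧ m + 1 ∉ B ∧ m + 1 < e then f m else 0) =
      if om a then ∑ m ∈ Ico a (b - 1), f m else 0 := by
  obtain ⟨h1, h2, h3, h4, h5⟩ := h
  obtain ⟨c, rfl⟩ : ∃ c, b = c + 1 := ⟨b - 1, by omega⟩
  rw [sum_Ico_succ_top (by omega), Nat.add_sub_cancel]
  have e1 : (if om c ∧ c + 1 ∉ B ∧ c + 1 < e then f c else 0) = 0 := by
    rw [if_neg]
    rintro ⟨-, h6, h7⟩
    rcases h4 with h4 | h4
    · exact h6 h4
    · omega
  rw [e1, add_zero]
  by_cases ho : om a
  · rw [if_pos ho]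
    refine sum_congr rfl fun m hm => ?_
    rw [mem_Ico] at hm
    rw [if_pos ⟨(hom m hm.1 (by omega)).2 ho, h5 (m + 1) (by omega) (by omega), by omega⟩]
  · rw [if_neg ho]
    refine sum_eq_zero fun m hm => ?_
    rw [mem_Ico] at hm
    rw [if_neg fun h6 => ho ((hom m hm.1 (by omega)).1 h6.1)]

open Classical in
/-- the first state of a block. -/
lemma sum_first_flat (h : Iv B e a b) {om : ℕ → Prop} (f : ℕ → ℝ) :
    ∑ m ∈ Ico a b, (if om m ∧ m ∈ B then f m else 0) = if om a then f a else 0 := by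
  obtain ⟨h1, h2, h3, h4, h5⟩ := h
  rw [sum_eq_single a]
  · by_cases ho : om a
    · rw [if_pos ⟨ho, h1⟩, if_pos ho]
    · rw [if_neg fun h6 => ho h6.1, if_neg ho]
  · intro m hm hma
    rw [mem_Ico] at hm
    rw [if_neg fun h6 => h5 m (by omega) hm.2 h6.2]
  · intro h6
    exact absurd (mem_Ico.2 ⟨le_rfl, h2⟩) h6

open Classical in
/-- the last state of a block. -/
lemma sum_last_flat (h : Iv B e a b) {om : ℕ → Prop}
    (hom : ∀ m, a ≤ m → m < b → (om m ↔ om a)) (f : ℕ → ℝ) :
    ∑ m ∈ Ico a b, (if om m ∧ (m + 1 ∈ B ∨ m + 1 = e) then f m else 0) =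
      if om a then f (b - 1) else 0 := by
  obtain ⟨h1, h2, h3, h4, h5⟩ := h
  rw [sum_eq_single (b - 1)]
  · have h6 : b - 1 + 1 = b := by omega
    rw [h6]
    by_cases ho : om a
    · rw [if_pos ⟨(hom _ (by omega) (by omega)).2 ho, h4⟩, if_pos ho]
    · rw [if_neg fun h7 => ho ((hom _ (by omega) (by omega)).1 h7.1), if_neg ho]
  · intro m hm hma
    rw [mem_Ico] at hm
    rw [if_neg]
    rintro ⟨-, h6⟩
    rcases h6 with h6 | h6
    · exact h5 (m + 1) (by omega) (by omega) h6
    · omega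
  · intro h6
    exact absurd (mem_Ico.2 ⟨by omega, by omega⟩) h6

end flat

/-! ### one block -/

section block

variable {th A : ℝ}

/-- variation of `Psi` -/
lemma abs_Psi_le (hth : 0 ≤ th) (hth1 : th ≤ 1 / 2) (hA : 0 < A) (hA8 : A ≤ 1 / 8) {x y : ℝ}
    (hy : 0 ≤ y) :
    |Psi th A y - Psi th A x| ≤ 2 * (slope th A x * |y - x|) := by
  have hc : 1 / (1 - th) ≤ 2 := by rw [div_le_iff₀ (by linarith)]; linarith
  rcases le_total x y with h | h
  · rw [abs_of_nonneg (sub_nonneg.2 (Psi_mono hth hA h)), abs_of_nonneg (sub_nonneg.2 h)]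
    have h1 := Psi_sub_le hth hA h
    have h2 : 0 ≤ slope th A x * (y - x) :=
      mul_nonneg (slope_pos hA x).le (sub_nonneg.2 h)
    linarith
  · rw [abs_of_nonpos (sub_nonpos.2 (Psi_mono hth hA h)), abs_of_nonpos (sub_nonpos.2 h)]
    have h1 := Psi_sub_le_big hth (by linarith) hA hA8 hy h
    have h2 : 0 ≤ slope th A x * (x - y) :=
      mul_nonneg (slope_pos hA x).le (sub_nonneg.2 h)
    have h3 := mul_le_mul_of_nonneg_right hc h2
    have h4 : slope th A x * -(y - x) = slope th A x * (x - y) := by ring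
    rw [h4]
    linarith

/-- variation of `Psi`, slope at the larger point -/
lemma abs_Psi_le_max (hth : 0 ≤ th) (hth1 : th ≤ 1 / 2) (hA : 0 < A) (hA8 : A ≤ 1 / 8) {x y : ℝ}
    (hx : 0 ≤ x) (hy : 0 ≤ y) :
    |Psi th A y - Psi th A x| ≤ 2 * (slope th A (max x y) * |y - x|) := by
  have hc : 1 / (1 - th) ≤ 2 := by rw [div_le_iff₀ (by linarith)]; linarith
  have key : ∀ a b, 0 ≤ a → a ≤ b → Psi th A b - Psi th A a ≤ 2 * (slope th A b * (b - a)) := by
    intro a b ha hab
    have h1 := Psi_sub_le_big hth (by linarith) hA hA8 ha hab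
    have h2 : 0 ≤ slope th A b * (b - a) := mul_nonneg (slope_pos hA b).le (sub_nonneg.2 hab)
    have h3 := mul_le_mul_of_nonneg_right hc h2
    linarith
  rcases le_total x y with h | h
  · rw [abs_of_nonneg (sub_nonneg.2 (Psi_mono hth hA h)), abs_of_nonneg (sub_nonneg.2 h),
      max_eq_right h]
    exact key x y hx h
  · rw [abs_of_nonpos (sub_nonpos.2 (Psi_mono hth hA h)), abs_of_nonpos (sub_nonpos.2 h),
      max_eq_left h]
    have := key y x hy h
    rw [neg_sub, neg_sub]
    exact this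

/-- power form below `Psi` -/
lemma power_le_Psi (hth : 0 ≤ th) (hth1 : th < 1) (hA : 0 < A) {x y : ℝ} (hx : A ≤ x)
    (hxy : x ≤ y) : A ^ th * y ^ (1 - th) - A ^ th * x ^ (1 - th) ≤ Psi th A y - Psi th A x := by
  have h1t : 0 < 1 - th := by linarith
  have hx0 : 0 < x := hA.trans_le hx
  rw [Psi_sub hA]
  have h1 : ∫ s in x..y, (A / s) ^ th ≤ ∫ s in x..y, slope th A s := by
    refine intervalIntegral.integral_mono_on hxy ?_ (intv hA x y) fun s hs =>
      slope_ge hth hA (hx.trans hs.1)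
    refine ContinuousOn.intervalIntegrable ?_
    rw [Set.uIcc_of_le hxy]
    intro s hs
    have hs0 : s ≠ 0 := (hx0.trans_le hs.1).ne'
    refine ContinuousAt.continuousWithinAt ?_
    refine ContinuousAt.rpow_const (continuousAt_const.div continuousAt_id hs0) ?_
    left
    exact (div_pos hA (hx0.trans_le hs.1)).ne'
  rw [power_int hth1 hA hx0 hxy] at h1
  refine le_trans ?_ h1
  have h2 : x ^ (1 - th) ≤ y ^ (1 - th) := Real.rpow_le_rpow hx0.le hxy h1t.le
  have h3 : 0 ≤ A ^ th * (y ^ (1 - th) - x ^ (1 - th)) :=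
    mul_nonneg (Real.rpow_nonneg hA.le _) (sub_nonneg.2 h2)
  rw [← mul_sub, le_div_iff₀ h1t]
  nlinarith

/-- the same cut at a level -/
lemma min_power_le (hth : 0 ≤ th) (hth1 : th < 1) (hA : 0 < A) {x y q : ℝ} (hx : A ≤ x)
    (hxy : x ≤ y) : A ^ th * min (y ^ (1 - th)) q ≤
      A ^ th * min (x ^ (1 - th)) q + (Psi th A y - Psi th A x) := by
  have h1 := power_le_Psi hth hth1 hA hx hxy
  have hAth : 0 < A ^ th := Real.rpow_pos_of_pos hA _
  have h0 : x ^ (1 - th) ≤ y ^ (1 - th) :=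
    Real.rpow_le_rpow (hA.le.trans hx) hxy (by linarith)
  rcases le_total (x ^ (1 - th)) q with h2 | h2
  · rw [min_eq_left h2]
    have h3 : A ^ th * min (y ^ (1 - th)) q ≤ A ^ th * y ^ (1 - th) :=
      mul_le_mul_of_nonneg_left (min_le_left _ _) hAth.le
    linarith
  · rw [min_eq_right h2, min_eq_right (h2.trans h0)]
    have := Psi_mono (th := th) hth hA hxy
    linarith

/-- telescoping of absolute values -/
lemma abs_tel (g : ℕ → ℝ) {a c : ℕ} (h : a ≤ c) : g a - g c ≤ ∑ m ∈ Ico a c, |g (m + 1) - g m| := by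
  induction c, h using Nat.le_induction with
  | base => simp
  | succ c hc ih =>
    rw [sum_Ico_succ_top hc]
    have : g c - g (c + 1) ≤ |g (c + 1) - g c| := by
      rw [abs_sub_comm]; exact le_abs_self _
    linarith

/-- lower bound of `Psi` -/
lemma Psi_ge (hth : 0 ≤ th) (hA : 0 < A) {B : ℝ} (hB : 1 ≤ B) (hBA : B * A ≤ 1 / 8) :
    B ^ (1 - th) * A ≤ Psi th A (B * A) := by
  have hB0 : 0 < B := by linarith
  have h0 : 0 ≤ B * A := by positivity
  have h1 := Psi_sub_ge hth hA h0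
  rw [Psi_zero, sub_zero, sub_zero] at h1
  have h2 : A ≤ B * A := by nlinarith
  rw [slope_mid h2 hBA] at h1
  have h3 : (A / (B * A)) ^ th * (B * A) = B ^ (1 - th) * A := by
    rw [show A / (B * A) = B⁻¹ by field_simp, Real.inv_rpow hB0.le, Real.rpow_sub hB0,
      Real.rpow_one]
    field_simp
  rw [h3] at h1
  exact h1

variable {Mc et : ℝ} {a b : ℕ} {D F r P h : ℕ → ℝ} {star : ℕ → Prop}

/-- hypotheses on a counted block `[a, b)`: closeness at the states, variation at the moves, end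
above `A` or maximum above `Mc A`. -/
structure CBlk (th A Mc : ℝ) (a b : ℕ) (D F Q h : ℕ → ℝ) : Prop where
  D0 : ∀ m, a ≤ m → m < b → 0 ≤ D m
  F0 : ∀ m, a ≤ m → m < b → 0 ≤ F m
  close : ∀ m, a ≤ m → m < b → |F m - D m| ≤ h m
  hA : ∀ m, a ≤ m → m < b → h m ≤ A / 4
  move : ∀ m, a ≤ m → m + 1 < b → |Psi th A (F (m + 1)) - Psi th A (F m)| ≤ Q m
  om : A ≤ D (b - 1) ∨ ∃ m, a ≤ m ∧ m < b ∧ Mc * A ≤ D m

/-- price of the ends -/
noncomputable def cv (th A : ℝ) (D h : ℕ → ℝ) (m : ℕ) : ℝ := 2 * (slope th A (D m) * h m)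

lemma CBlk.ends {Q : ℕ → ℝ} (H : CBlk th A Mc a b D F Q h) (hth : 0 ≤ th) (hth1 : th ≤ 1 / 2)
    (hA : 0 < A) (hA8 : A ≤ 1 / 8) {m : ℕ} (h1 : a ≤ m) (h2 : m < b) :
    |Psi th A (F m) - Psi th A (D m)| ≤ cv th A D h m := by
  refine (abs_Psi_le hth hth1 hA hA8 (H.F0 m h1 h2)).trans ?_
  unfold cv
  have := mul_le_mul_of_nonneg_left (H.close m h1 h2) (slope_pos (th := th) hA (D m)).le
  linarith

lemma CBlk.Q_nonneg {Q : ℕ → ℝ} (H : CBlk th A Mc a b D F Q h) {m : ℕ} (h1 : a ≤ m)
    (h2 : m + 1 < b) : 0 ≤ Q m := (abs_nonneg _).trans (H.move m h1 h2)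

/-- the restart -/
lemma CBlk.restart {Q : ℕ → ℝ} (H : CBlk th A Mc a b D F Q h) (hab : a < b) (hth : 0 ≤ th)
    (hA : 0 < A) (hMc : 2 ≤ Mc) (hMA : Mc * A ≤ 1 / 4)
    (het0 : 0 ≤ et) (het : 1 ≤ et * ((Mc / 2) ^ (1 - th) - 2)) (hlt : D (b - 1) < A) :
    A ≤ et * ∑ m ∈ Ico a (b - 1), Q m := by
  rcases H.om with h1 | ⟨m0, h1, h2, h3⟩
  · exact absurd h1 (not_le.2 hlt)
  have hF0 : Mc / 2 * A ≤ F m0 := by
    have e1 := abs_le.1 (H.close m0 h1 h2)
    have e2 := H.hA m0 h1 h2
    nlinarith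
  have hF1 : F (b - 1) ≤ 2 * A := by
    have e1 := abs_le.1 (H.close (b - 1) (by omega) (by omega))
    have e2 := H.hA (b - 1) (by omega) (by omega)
    linarith
  have h4 := Psi_ge (B := Mc / 2) hth hA (by linarith) (by linarith)
  have h5 : Psi th A (Mc / 2 * A) ≤ Psi th A (F m0) := Psi_mono hth hA hF0
  have h6 : Psi th A (F (b - 1)) ≤ 2 * A := by
    have e1 : Psi th A (F (b - 1)) ≤ Psi th A (2 * A) := Psi_mono hth hA hF1
    have e2 := Psi_sub_le (a := 0) (b := 2 * A) hth hA (by linarith)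
    rw [Psi_zero, sub_zero, sub_zero, slope_of_le hA hA.le, one_mul] at e2
    linarith
  have h7 := abs_tel (fun m => Psi th A (F m)) (show m0 ≤ b - 1 by omega)
  have h8 : ∑ m ∈ Ico m0 (b - 1), |Psi th A (F (m + 1)) - Psi th A (F m)| ≤
      ∑ m ∈ Ico a (b - 1), Q m := by
    refine (sum_le_sum fun m hm => ?_).trans (sum_le_sum_of_subset_of_nonneg
      (Ico_subset_Ico_left h1) fun m hm _ => ?_)
    · rw [mem_Ico] at hm
      exact H.move m (by omega) (by omega)
    · rw [mem_Ico] at hm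
      exact H.Q_nonneg hm.1 (by omega)
  have h7' : Psi th A (F m0) - Psi th A (F (b - 1)) ≤
      ∑ m ∈ Ico m0 (b - 1), |Psi th A (F (m + 1)) - Psi th A (F m)| := h7
  have h9 : ((Mc / 2) ^ (1 - th) - 2) * A ≤ ∑ m ∈ Ico a (b - 1), Q m := by
    nlinarith
  have h10 := mul_le_mul_of_nonneg_left h9 het0
  nlinarith

open Classical in
/-- **one counted block**: the decrease of `Psi (F)` at the star moves. -/
theorem CBlk.main {Q : ℕ → ℝ} (H : CBlk th A Mc a b D F Q h) (hab : a < b) (hth : 0 ≤ th)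
    (hth1 : th ≤ 1 / 2) (hA : 0 < A) (hMc : 2 ≤ Mc) (hMA : Mc * A ≤ 1 / 4)
    (het0 : 0 ≤ et) (het : 1 ≤ et * ((Mc / 2) ^ (1 - th) - 2)) :
    ∑ m ∈ Ico a (b - 1), (if star m then Psi th A (F m) - Psi th A (F (m + 1)) else - Q m) ≤
      Psi th A (max A (D a)) - Psi th A (max A (D (b - 1))) +
        (cv th A D h a + cv th A D h (b - 1) + et * ∑ m ∈ Ico a (b - 1), Q m) := by
  have hA8 : A ≤ 1 / 8 := by nlinarith
  have hQ : 0 ≤ ∑ m ∈ Ico a (b - 1), Q m := sum_nonneg fun m hm => by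
    rw [mem_Ico] at hm; exact H.Q_nonneg hm.1 (by omega)
  have h1 : ∑ m ∈ Ico a (b - 1), (if star m then Psi th A (F m) - Psi th A (F (m + 1)) else - Q m)
      ≤ Psi th A (F a) - Psi th A (F (b - 1)) := by
    have e1 : ∑ m ∈ Ico a (b - 1), (Psi th A (F m) - Psi th A (F (m + 1))) =
        Psi th A (F a) - Psi th A (F (b - 1)) := by
      have := Finset.sum_Ico_sub (fun m => Psi th A (F m)) (show a ≤ b - 1 by omega)
      have e2 : ∑ m ∈ Ico a (b - 1), (Psi th A (F m) - Psi th A (F (m + 1))) =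
          - ∑ m ∈ Ico a (b - 1), (Psi th A (F (m + 1)) - Psi th A (F m)) := by
        rw [← sum_neg_distrib]
        exact sum_congr rfl fun m _ => by ring
      rw [e2, this]
      ring
    rw [← e1]
    refine sum_le_sum fun m hm => ?_
    rw [mem_Ico] at hm
    split_ifs
    · exact le_rfl
    · have := (abs_le.1 (H.move m hm.1 (by omega))).2
      linarith
  have h2 := (abs_le.1 (H.ends hth hth1 hA hA8 le_rfl hab)).2
  have h3 := (abs_le.1 (H.ends hth hth1 hA hA8 (show a ≤ b - 1 by omega) (by omega))).1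
  have h4 : Psi th A (D a) ≤ Psi th A (max A (D a)) := Psi_mono hth hA (le_max_right _ _)
  rcases le_or_gt A (D (b - 1)) with h5 | h5
  · rw [max_eq_right h5]
    have := mul_nonneg het0 hQ
    linarith
  · rw [max_eq_left h5.le]
    have h6 := H.restart hab hth hA hMc hMA het0 het h5
    have h7 : Psi th A A ≤ A := by
      have e2 := Psi_sub_le (a := 0) (b := A) hth hA hA.le
      rw [Psi_zero, sub_zero, sub_zero, slope_of_le hA hA.le, one_mul] at e2
      exact e2
    have h8 : 0 ≤ Psi th A (D (b - 1)) := by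
      have := Psi_mono (th := th) hth hA (H.D0 (b - 1) (by omega) (by omega))
      rwa [Psi_zero] at this
    linarith

/-- **one counted block**: the rise of `Psi (max A D)`. -/
theorem CBlk.rise {Q : ℕ → ℝ} (H : CBlk th A Mc a b D F Q h) (hab : a < b) (hth : 0 ≤ th)
    (hth1 : th ≤ 1 / 2) (hA : 0 < A) (hMc : 2 ≤ Mc) (hMA : Mc * A ≤ 1 / 4)
    (het0 : 0 ≤ et) (het : 1 ≤ et * ((Mc / 2) ^ (1 - th) - 2)) :
    Psi th A (max A (D (b - 1))) ≤ Psi th A (max A (D a)) +
        (cv th A D h a + cv th A D h (b - 1) + (1 + et) * ∑ m ∈ Ico a (b - 1), Q m) := by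
  classical
  have h1 := H.main (star := fun _ => False) hab hth hth1 hA hMc hMA het0 het
  simp only [if_false, sum_neg_distrib] at h1
  linarith

end block

/-! ### one life -/

section life

open Classical in
/-- moves strictly inside a counted block of the life ending at `e` -/
noncomputable def inn (B : Set ℕ) (e : ℕ) (om : ℕ → Prop) (f : ℕ → ℝ) (m : ℕ) : ℝ :=
  if om m ∧ m + 1 ∉ B ∧ m + 1 < e then f m else 0

open Classical in
/-- first states of counted blocks -/
noncomputable def fst (B : Set ℕ) (om : ℕ → Prop) (f : ℕ → ℝ) (m : ℕ) : ℝ :=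
  if om m ∧ m ∈ B then f m else 0

open Classical in
/-- last states of counted blocks -/
noncomputable def lst (B : Set ℕ) (e : ℕ) (om : ℕ → Prop) (f : ℕ → ℝ) (m : ℕ) : ℝ :=
  if om m ∧ (m + 1 ∈ B ∨ m + 1 = e) then f m else 0

/-- a life `[s, e)` of one label: `B` starts of its blocks, `om` = counted. -/
structure LifeH (th A Mc : ℝ) (s e : ℕ) (B : Set ℕ) (om : ℕ → Prop) (D F Q h : ℕ → ℝ) : Prop where
  hs : s ∈ B
  hse : s < e
  cont : ∀ m, s ≤ m → m + 1 < e → m + 1 ∈ B → D (m + 1) = D m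
  omc : ∀ m, s ≤ m → m + 1 < e → m + 1 ∉ B → (om (m + 1) ↔ om m)
  om0 : ∀ a b, Iv B e a b → s ≤ a → ¬ om a → D (b - 1) ≤ A
  blk : ∀ a b, Iv B e a b → s ≤ a → om a → CBlk th A Mc a b D F Q h

variable {th A Mc et : ℝ} {s e : ℕ} {B : Set ℕ} {om star : ℕ → Prop} {D F Q h : ℕ → ℝ}

lemma LifeH.omb (H : LifeH th A Mc s e B om D F Q h) {a b : ℕ} (hiv : Iv B e a b) (hsa : s ≤ a) :
    ∀ m, a ≤ m → m < b → (om m ↔ om a) := by
  obtain ⟨h1, h2, h3, h4, h5⟩ := hiv
  intro m hm hmb
  induction m, hm using Nat.le_induction with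
  | base => exact Iff.rfl
  | succ m hm ih =>
    rw [H.omc m (by omega) (by omega) (h5 (m + 1) (by omega) hmb)]
    exact ih (by omega)

/-- value of the potential at block boundaries -/
noncomputable def bd (th A : ℝ) (D : ℕ → ℝ) (e m : ℕ) : ℝ :=
  Psi th A (max A (if m < e then D m else D (e - 1)))

lemma LifeH.bd_end (H : LifeH th A Mc s e B om D F Q h) {a b : ℕ} (hiv : Iv B e a b)
    (hsa : s ≤ a) : bd th A D e b = Psi th A (max A (D (b - 1))) := by
  obtain ⟨h1, h2, h3, h4, h5⟩ := hiv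
  unfold bd
  split_ifs with h6
  · have h7 : b ∈ B := by
      rcases h4 with h7 | h7
      · exact h7
      · omega
    obtain ⟨c, rfl⟩ : ∃ c, b = c + 1 := ⟨b - 1, by omega⟩
    rw [Nat.add_sub_cancel, H.cont c (by omega) h6 h7]
  · have : b = e := by omega
    rw [this]

lemma bd_start {a b : ℕ} (hiv : Iv B e a b) :
    bd th A D e a = Psi th A (max A (D a)) := by
  unfold bd
  rw [if_pos (by have := hiv.2.1; have := hiv.2.2.1; omega)]

/-- a not counted block does not raise the potential -/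
lemma LifeH.bd_om0 (H : LifeH th A Mc s e B om D F Q h) (hth : 0 ≤ th) (hA : 0 < A) {a b : ℕ}
    (hiv : Iv B e a b) (hsa : s ≤ a) (ho : ¬ om a) : bd th A D e b ≤ bd th A D e a := by
  rw [H.bd_end hiv hsa, bd_start hiv, max_eq_left (H.om0 a b hiv hsa ho)]
  exact Psi_mono hth hA (le_max_left _ _)

open Classical in
/-- **(T1)** the decrease of `Psi (F)` at the star moves of the counted blocks. -/
theorem LifeH.star_sum (H : LifeH th A Mc s e B om D F Q h) (hth : 0 ≤ th) (hth1 : th ≤ 1 / 2)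
    (hA : 0 < A) (hMc : 2 ≤ Mc) (hMA : Mc * A ≤ 1 / 4) (het0 : 0 ≤ et)
    (het : 1 ≤ et * ((Mc / 2) ^ (1 - th) - 2)) :
    ∑ m ∈ Ico s e, inn B e om
        (fun m => if star m then Psi th A (F m) - Psi th A (F (m + 1)) else - Q m) m ≤
      Psi th A (max A (D s)) - Psi th A (max A (D (e - 1))) +
        (∑ m ∈ Ico s e, (fst B om (cv th A D h) m + lst B e om (cv th A D h) m) +
          et * ∑ m ∈ Ico s e, inn B e om Q m) := by
  have key := tel_flat (Φ := bd th A D e) (g := fun m => inn B e om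
      (fun m => if star m then Psi th A (F m) - Psi th A (F (m + 1)) else - Q m) m -
        (fst B om (cv th A D h) m + lst B e om (cv th A D h) m) - et * inn B e om Q m)
    H.hs H.hse ?_
  · rw [sum_sub_distrib, sum_sub_distrib, ← mul_sum] at key
    have e1 := bd_start (th := th) (A := A) (D := D) (iv_en H.hs H.hse)
    have e2 : bd th A D e e = Psi th A (max A (D (e - 1))) := by
      unfold bd; rw [if_neg (lt_irrefl _)]
    rw [e1, e2] at key
    linarith
  · intro a b hiv hsa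
    have hom := H.omb hiv hsa
    rw [sum_sub_distrib, sum_sub_distrib, ← mul_sum, sum_add_distrib]
    have e1 := sum_inner_flat hiv hom
      (fun m => if star m then Psi th A (F m) - Psi th A (F (m + 1)) else - Q m)
    have e2 := sum_first_flat hiv (om := om) (cv th A D h)
    have e3 := sum_last_flat hiv hom (cv th A D h)
    have e4 := sum_inner_flat hiv hom Q
    unfold inn fst lst
    rw [e1, e2, e3, e4]
    by_cases ho : om a
    · rw [if_pos ho, if_pos ho, if_pos ho, if_pos ho, H.bd_end hiv hsa, bd_start hiv]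
      have := (H.blk a b hiv hsa ho).main (star := star) hiv.2.1 hth hth1 hA hMc hMA het0 het
      linarith
    · rw [if_neg ho, if_neg ho, if_neg ho, if_neg ho]
      have := H.bd_om0 hth hA hiv hsa ho
      linarith

open Classical in
/-- **(T3)** the rise of the potential during a life. -/
theorem LifeH.rise (H : LifeH th A Mc s e B om D F Q h) (hth : 0 ≤ th) (hth1 : th ≤ 1 / 2)
    (hA : 0 < A) (hMc : 2 ≤ Mc) (hMA : Mc * A ≤ 1 / 4) (het0 : 0 ≤ et)
    (het : 1 ≤ et * ((Mc / 2) ^ (1 - th) - 2)) :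
    Psi th A (max A (D (e - 1))) ≤ Psi th A (max A (D s)) +
        (∑ m ∈ Ico s e, (fst B om (cv th A D h) m + lst B e om (cv th A D h) m) +
          (1 + et) * ∑ m ∈ Ico s e, inn B e om Q m) := by
  have h1 := H.star_sum (star := fun _ => False) hth hth1 hA hMc hMA het0 het
  simp only [if_false] at h1
  have h2 : ∀ m, inn B e om (fun m => - Q m) m = - inn B e om Q m := by
    intro m
    unfold inn
    split_ifs
    · rfl
    · exact neg_zero.symm
  rw [sum_congr rfl fun m _ => h2 m, sum_neg_distrib] at h1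
  linarith

open Classical in
/-- **(T2)** the units of the counted blocks. -/
theorem LifeH.units (H : LifeH th A Mc s e B om D F Q h) (hth : 0 ≤ th) (hth1 : th ≤ 1 / 2)
    (hA : 0 < A) (hMc : 2 ≤ Mc) (hMA : Mc * A ≤ 1 / 4) (het0 : 0 ≤ et)
    (het : 1 ≤ et * ((Mc / 2) ^ (1 - th) - 2)) {K q : ℝ} (hK : 0 ≤ K) (hq : 0 ≤ q)
    {u : ℕ → ℝ} (hu : ∀ a b, Iv B e a b → s ≤ a → om a →
      u a ≤ K * ∑ m ∈ Ico a (b - 1), Q m ∨ (b = e ∧
        u a ≤ K * (A ^ th * min ((max A (D a)) ^ (1 - th)) q) + K * ∑ m ∈ Ico a (b - 1), Q m)) :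
    ∑ m ∈ Ico s e, fst B om u m ≤ K * (A ^ th * min ((max A (D s)) ^ (1 - th)) q) +
        K * (∑ m ∈ Ico s e, (fst B om (cv th A D h) m + lst B e om (cv th A D h) m) +
          (2 + et) * ∑ m ∈ Ico s e, inn B e om Q m) := by
  have hf0 : ∀ x, A ≤ x → 0 ≤ A ^ th * min (x ^ (1 - th)) q := fun x hx =>
    mul_nonneg (Real.rpow_nonneg hA.le _) (le_min (Real.rpow_nonneg (hA.le.trans hx) _) hq)
  set Φ : ℕ → ℝ := fun m => if m < e then K * (A ^ th * min ((max A (D m)) ^ (1 - th)) q) else 0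
    with hΦ
  have key := tel_flat (Φ := Φ) (g := fun m => fst B om u m -
        K * (fst B om (cv th A D h) m + lst B e om (cv th A D h) m) -
        K * (2 + et) * inn B e om Q m) H.hs H.hse ?_
  · rw [sum_sub_distrib, sum_sub_distrib, ← mul_sum, ← mul_sum] at key
    have e1 : Φ s = K * (A ^ th * min ((max A (D s)) ^ (1 - th)) q) := by
      simp only [hΦ]; rw [if_pos H.hse]
    have e2 : Φ e = 0 := by simp only [hΦ]; rw [if_neg (lt_irrefl _)]
    rw [e1, e2] at key
    linarith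
  · intro a b hiv hsa
    have hom := H.omb hiv hsa
    rw [sum_sub_distrib, sum_sub_distrib, ← mul_sum, ← mul_sum, sum_add_distrib]
    have e1 := sum_first_flat hiv (om := om) u
    have e2 := sum_first_flat hiv (om := om) (cv th A D h)
    have e3 := sum_last_flat hiv hom (cv th A D h)
    have e4 := sum_inner_flat hiv hom Q
    unfold inn fst lst
    rw [e1, e2, e3, e4]
    have hab := hiv.2.1
    have hbe := hiv.2.2.1
    have hΦa : Φ a = K * (A ^ th * min ((max A (D a)) ^ (1 - th)) q) := by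
      simp only [hΦ]; rw [if_pos (by omega)]
    -- the value at the end
    have hΦb : b < e → Φ b = K * (A ^ th * min ((max A (D (b - 1))) ^ (1 - th)) q) := by
      intro hlt
      have h7 : b ∈ B := by
        rcases hiv.2.2.2.1 with h7 | h7
        · exact h7
        · omega
      simp only [hΦ]
      rw [if_pos hlt]
      obtain ⟨c, rfl⟩ : ∃ c, b = c + 1 := ⟨b - 1, by omega⟩
      rw [Nat.add_sub_cancel, H.cont c (by omega) hlt h7]
    have hΦe : b = e → Φ b = 0 := fun h => by simp only [hΦ]; rw [if_neg (by omega)]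
    by_cases ho : om a
    · rw [if_pos ho, if_pos ho, if_pos ho, if_pos ho]
      have hB := H.blk a b hiv hsa ho
      have hQ : 0 ≤ ∑ m ∈ Ico a (b - 1), Q m := sum_nonneg fun m hm => by
        rw [mem_Ico] at hm; exact hB.Q_nonneg hm.1 (by omega)
      have hc1 : 0 ≤ cv th A D h a :=
        (abs_nonneg _).trans (hB.ends hth hth1 hA (by nlinarith) le_rfl hab)
      have hc2 : 0 ≤ cv th A D h (b - 1) :=
        (abs_nonneg _).trans (hB.ends hth hth1 hA (by nlinarith) (by omega) (by omega))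
      have hR := hB.rise hab hth hth1 hA hMc hMA het0 het
      -- rise of the cut power
      have hf : A ^ th * min ((max A (D (b - 1))) ^ (1 - th)) q ≤
          A ^ th * min ((max A (D a)) ^ (1 - th)) q + (cv th A D h a + cv th A D h (b - 1) +
            (1 + et) * ∑ m ∈ Ico a (b - 1), Q m) := by
        have hnn : 0 ≤ cv th A D h a + cv th A D h (b - 1) +
            (1 + et) * ∑ m ∈ Ico a (b - 1), Q m := by positivity
        rcases le_total (max A (D (b - 1))) (max A (D a)) with h1 | h1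
        · have h2 : (max A (D (b - 1))) ^ (1 - th) ≤ (max A (D a)) ^ (1 - th) :=
            Real.rpow_le_rpow (hA.le.trans (le_max_left _ _)) h1 (by linarith)
          have h3 : A ^ th * min ((max A (D (b - 1))) ^ (1 - th)) q ≤
              A ^ th * min ((max A (D a)) ^ (1 - th)) q :=
            mul_le_mul_of_nonneg_left (min_le_min h2 le_rfl) (Real.rpow_nonneg hA.le _)
          linarith
        · have h2 := min_power_le (q := q) hth (by linarith) hA (le_max_left A (D a)) h1
          linarith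
      have hf' := mul_le_mul_of_nonneg_left hf hK
      have hfa := mul_nonneg hK (hf0 _ (le_max_left A (D a)))
      have hKQ := mul_nonneg hK hQ
      have hKe : 0 ≤ K * et * ∑ m ∈ Ico a (b - 1), Q m := by positivity
      have hKc : 0 ≤ K * (cv th A D h a + cv th A D h (b - 1)) := by positivity
      rcases hu a b hiv hsa ho with h1 | ⟨h1, h2⟩
      · rcases hbe.eq_or_lt with h3 | h3
        · rw [hΦa, hΦe h3]
          nlinarith
        · rw [hΦa, hΦb h3]
          nlinarith
      · rw [hΦa, hΦe h1]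
        nlinarith
    · rw [if_neg ho, if_neg ho, if_neg ho, if_neg ho]
      rcases hbe.eq_or_lt with h3 | h3
      · rw [hΦa, hΦe h3]
        have := mul_nonneg hK (hf0 _ (le_max_left A (D a)))
        linarith
      · rw [hΦa, hΦb h3, max_eq_left (H.om0 a b hiv hsa ho)]
        have h2 : A ^ (1 - th) ≤ (max A (D a)) ^ (1 - th) :=
          Real.rpow_le_rpow hA.le (le_max_left _ _) (by linarith)
        have h4 : A ^ th * min (A ^ (1 - th)) q ≤ A ^ th * min ((max A (D a)) ^ (1 - th)) q :=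
          mul_le_mul_of_nonneg_left (min_le_min h2 le_rfl) (Real.rpow_nonneg hA.le _)
        have := mul_le_mul_of_nonneg_left h4 hK
        linarith

end life

end Vale.Agent.P262.H148
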