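import Mathlib

/-!
# P262, milestone 2: the linear system over the levels

`Z l` = total of the level `l` (units, star activity, entries, other moves).  Entries decay by `kp`
per level, the other moves of level `l` are bounded by a geometric average of the totals.
-/

namespace Vale.Agent.P262.H148

open Finset

/-- weighted double sum, deeper levels -/
lemma sum_deeper {n : ℕ} {b lam : ℝ} (hb : 0 ≤ b) (hlam : 0 < lam) (hbl : 2 * b ≤ lam)
    {Z : ℕ → ℝ} (hZ : ∀ i, i < n → 0 ≤ Z i) :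
    ∑ l ∈ range n, lam ^ l * ∑ i ∈ Ico l n, b ^ (i - l) * Z i ≤ 2 * ∑ i ∈ range n, lam ^ i * Z i := by
  have h1 : ∑ l ∈ range n, lam ^ l * ∑ i ∈ Ico l n, b ^ (i - l) * Z i =
      ∑ i ∈ range n, ∑ l ∈ range (i + 1), lam ^ l * (b ^ (i - l) * Z i) := by
    have e1 : ∀ l ∈ range n, lam ^ l * ∑ i ∈ Ico l n, b ^ (i - l) * Z i =
        ∑ i ∈ Ico l n, lam ^ l * (b ^ (i - l) * Z i) := fun l _ => mul_sum _ _ _
    rw [sum_congr rfl e1]
    refine sum_comm' fun l i => ?_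
    simp only [mem_range, mem_Ico]
    omega
  rw [h1, mul_sum]
  refine sum_le_sum fun i hi => ?_
  have hi' := mem_range.1 hi
  have h2 : ∀ l ∈ range (i + 1), lam ^ l * (b ^ (i - l) * Z i) ≤
      (1 / 2) ^ (i - l) * (lam ^ i * Z i) := by
    intro l hl
    have hl' : l ≤ i := by have := mem_range.1 hl; omega
    have h3 : b ^ (i - l) ≤ (1 / 2) ^ (i - l) * lam ^ (i - l) := by
      rw [← mul_pow]
      exact pow_le_pow_left₀ hb (by linarith) _
    have h4 : lam ^ i = lam ^ l * lam ^ (i - l) := by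
      rw [← pow_add]; congr 1; omega
    rw [h4]
    have h5 : 0 ≤ lam ^ l * Z i := mul_nonneg (pow_nonneg hlam.le _) (hZ i hi')
    calc lam ^ l * (b ^ (i - l) * Z i) = b ^ (i - l) * (lam ^ l * Z i) := by ring
      _ ≤ (1 / 2) ^ (i - l) * lam ^ (i - l) * (lam ^ l * Z i) :=
          mul_le_mul_of_nonneg_right h3 h5
      _ = _ := by ring
  refine (sum_le_sum h2).trans ?_
  rw [← sum_mul]
  refine mul_le_mul_of_nonneg_right ?_ (mul_nonneg (pow_nonneg hlam.le _) (hZ i hi'))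
  have h6 : ∑ l ∈ range (i + 1), ((1 : ℝ) / 2) ^ (i - l) = ∑ l ∈ range (i + 1), (1 / 2) ^ l := by
    rw [← sum_range_reflect]
    refine sum_congr rfl fun l hl => ?_
    congr 1
    have := mem_range.1 hl
    omega
  rw [h6]
  have h7 := geom_sum_eq (show ((1 : ℝ) / 2) ≠ 1 by norm_num) (i + 1)
  rw [h7]
  have h8 : (0 : ℝ) ≤ (1 / 2) ^ (i + 1) := by positivity
  rw [div_le_iff_of_neg (by norm_num)]
  linarith

/-- weighted double sum, higher levels -/
lemma sum_higher {n : ℕ} {k2 lam : ℝ} (hk : 0 ≤ k2) (hlam : 0 < lam) (hkl : lam * k2 ≤ 1 / 2)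
    {Z : ℕ → ℝ} (hZ : ∀ i, i < n → 0 ≤ Z i) :
    ∑ l ∈ range n, lam ^ l * ∑ i ∈ range l, k2 ^ (l - i) * Z i ≤ ∑ i ∈ range n, lam ^ i * Z i := by
  have h1 : ∑ l ∈ range n, lam ^ l * ∑ i ∈ range l, k2 ^ (l - i) * Z i =
      ∑ i ∈ range n, ∑ l ∈ Ico (i + 1) n, lam ^ l * (k2 ^ (l - i) * Z i) := by
    have e1 : ∀ l ∈ range n, lam ^ l * ∑ i ∈ range l, k2 ^ (l - i) * Z i =
        ∑ i ∈ range l, lam ^ l * (k2 ^ (l - i) * Z i) := fun l _ => mul_sum _ _ _
    rw [sum_congr rfl e1]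
    refine sum_comm' fun l i => ?_
    simp only [mem_range, mem_Ico]
    omega
  rw [h1]
  refine sum_le_sum fun i hi => ?_
  have hi' := mem_range.1 hi
  have h2 : ∀ l ∈ Ico (i + 1) n, lam ^ l * (k2 ^ (l - i) * Z i) ≤
      (1 / 2) ^ (l - i) * (lam ^ i * Z i) := by
    intro l hl
    obtain ⟨hl1, hl2⟩ := mem_Ico.1 hl
    have h3 : lam ^ (l - i) * k2 ^ (l - i) ≤ (1 / 2) ^ (l - i) := by
      rw [← mul_pow]
      exact pow_le_pow_left₀ (mul_nonneg hlam.le hk) hkl _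
    have h4 : lam ^ l = lam ^ i * lam ^ (l - i) := by
      rw [← pow_add]; congr 1; omega
    rw [h4]
    have h5 : 0 ≤ lam ^ i * Z i := mul_nonneg (pow_nonneg hlam.le _) (hZ i hi')
    calc lam ^ i * lam ^ (l - i) * (k2 ^ (l - i) * Z i)
        = lam ^ (l - i) * k2 ^ (l - i) * (lam ^ i * Z i) := by ring
      _ ≤ _ := mul_le_mul_of_nonneg_right h3 h5
  refine (sum_le_sum h2).trans ?_
  rw [← sum_mul]
  have h5 : 0 ≤ lam ^ i * Z i := mul_nonneg (pow_nonneg hlam.le _) (hZ i hi')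
  suffices h : ∑ l ∈ Ico (i + 1) n, ((1 : ℝ) / 2) ^ (l - i) ≤ 1 by nlinarith
  rw [sum_Ico_eq_sum_range]
  have h6 : ∀ k ∈ range (n - (i + 1)), ((1 : ℝ) / 2) ^ (i + 1 + k - i) = 1 / 2 * (1 / 2) ^ k := by
    intro k _
    rw [show i + 1 + k - i = k + 1 by omega, pow_succ]
    ring
  rw [sum_congr rfl h6, ← mul_sum, geom_sum_eq (show ((1 : ℝ) / 2) ≠ 1 by norm_num)]
  have h8 : (0 : ℝ) ≤ (1 / 2) ^ (n - (i + 1)) := by positivity
  have h9 : ((1 : ℝ) / 2) ^ (n - (i + 1)) - 1 = -(1 - (1 / 2) ^ (n - (i + 1))) := by ring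
  rw [h9, show (1 / 2 - 1 : ℝ) = -(1 / 2) by norm_num, neg_div_neg_eq]
  rw [show 1 / 2 * ((1 - (1 / 2) ^ (n - (i + 1))) / (1 / 2)) =
    (1 : ℝ) - (1 / 2) ^ (n - (i + 1)) by ring]
  linarith

/-- **The linear system.** -/
theorem lin_sys {n : ℕ} {U R B I : ℕ → ℝ} {K kp ep b k2 lam be : ℝ}
    (hU : ∀ l, l < n → 0 ≤ U l) (hR : ∀ l, l < n → 0 ≤ R l) (hB : ∀ l, l < n → 0 ≤ B l)
    (hI : ∀ l, l < n → 0 ≤ I l) (hK : 0 ≤ K) (hkp : 0 ≤ kp) (hep : 0 ≤ ep) (hb : 0 ≤ b)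
    (hk2 : 0 ≤ k2) (hlam : 0 < lam) (hbe : 0 ≤ be)
    (h1 : ∀ l, l < n → U l + R l ≤ K * (B l + I l))
    (h2 : B 0 ≤ be)
    (h3 : ∀ l, l + 1 < n → B (l + 1) ≤ kp * (U l + R l + B l + I l))
    (h4 : ∀ l, l < n → I l ≤ ep * ∑ i ∈ Ico l n, b ^ (i - l) * (U i + R i + B i + I i) +
      ep * ∑ i ∈ range l, k2 ^ (l - i) * (U i + R i + B i + I i))
    (c1 : 2 * b ≤ lam) (c2 : lam * k2 ≤ 1 / 2) (c3 : (K + 1) * (lam * kp + 3 * ep) ≤ 1 / 2) :
    ∑ l ∈ range n, lam ^ l * (U l + R l + B l + I l) ≤ 2 * (K + 1) * be ∧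
      ∑ l ∈ range n, lam ^ l * I l ≤ 6 * (K + 1) * ep * be := by
  set Z : ℕ → ℝ := fun l => U l + R l + B l + I l with hZdef
  have hZ : ∀ l, l < n → 0 ≤ Z l := fun l hl => by
    have := hU l hl; have := hR l hl; have := hB l hl; have := hI l hl
    simp only [hZdef]; linarith
  set S := ∑ l ∈ range n, lam ^ l * Z l with hS
  have hS0 : 0 ≤ S := sum_nonneg fun l hl => mul_nonneg (pow_nonneg hlam.le _)
    (hZ l (mem_range.1 hl))
  -- the other moves
  have hIs : ∑ l ∈ range n, lam ^ l * I l ≤ 3 * ep * S := by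
    have e1 : ∀ l ∈ range n, lam ^ l * I l ≤
        ep * (lam ^ l * ∑ i ∈ Ico l n, b ^ (i - l) * Z i) +
        ep * (lam ^ l * ∑ i ∈ range l, k2 ^ (l - i) * Z i) := by
      intro l hl
      have := mul_le_mul_of_nonneg_left (h4 l (mem_range.1 hl)) (pow_nonneg hlam.le l)
      refine this.trans (le_of_eq ?_)
      ring
    refine (sum_le_sum e1).trans ?_
    rw [sum_add_distrib, ← mul_sum, ← mul_sum]
    have e2 := sum_deeper hb hlam c1 hZ
    have e3 := sum_higher hk2 hlam c2 hZ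
    have e4 := mul_le_mul_of_nonneg_left e2 hep
    have e5 := mul_le_mul_of_nonneg_left e3 hep
    rw [← hS] at e4 e5
    linarith
  -- the entries
  have hBs : ∑ l ∈ range n, lam ^ l * B l ≤ be + lam * kp * S := by
    rcases Nat.eq_zero_or_pos n with hn | hn
    · subst hn
      simp only [range_zero, sum_empty]
      positivity
    · obtain ⟨m, rfl⟩ : ∃ m, n = m + 1 := ⟨n - 1, by omega⟩
      rw [sum_range_succ']
      have e1 : ∑ l ∈ range m, lam ^ (l + 1) * B (l + 1) ≤ lam * kp * ∑ l ∈ range m, lam ^ l * Z l := by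
        rw [mul_sum]
        refine sum_le_sum fun l hl => ?_
        have hl' := mem_range.1 hl
        have e2 := mul_le_mul_of_nonneg_left (h3 l (by omega)) (pow_nonneg hlam.le (l + 1))
        refine e2.trans (le_of_eq ?_)
        simp only [hZdef]
        rw [pow_succ]
        ring
      have e2 : ∑ l ∈ range m, lam ^ l * Z l ≤ S := by
        rw [hS, sum_range_succ]
        have := mul_nonneg (pow_nonneg hlam.le m) (hZ m (by omega))
        linarith
      have e3 : lam * kp * ∑ l ∈ range m, lam ^ l * Z l ≤ lam * kp * S :=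
        mul_le_mul_of_nonneg_left e2 (mul_nonneg hlam.le hkp)
      rw [pow_zero, one_mul]
      linarith
  -- total
  have hT : S ≤ (K + 1) * (∑ l ∈ range n, lam ^ l * B l + ∑ l ∈ range n, lam ^ l * I l) := by
    rw [← sum_add_distrib, mul_sum, hS]
    refine sum_le_sum fun l hl => ?_
    have e1 := h1 l (mem_range.1 hl)
    have e2 : Z l ≤ (K + 1) * (B l + I l) := by simp only [hZdef]; linarith
    have e3 := mul_le_mul_of_nonneg_left e2 (pow_nonneg hlam.le l)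
    refine e3.trans (le_of_eq ?_)
    ring
  have hK1 : 0 ≤ K + 1 := by linarith
  have hmain : S ≤ (K + 1) * be + (K + 1) * (lam * kp + 3 * ep) * S := by
    have := mul_le_mul_of_nonneg_left (add_le_add hBs hIs) hK1
    refine hT.trans (this.trans (le_of_eq ?_))
    ring
  have h5 : (K + 1) * (lam * kp + 3 * ep) * S ≤ 1 / 2 * S := mul_le_mul_of_nonneg_right c3 hS0
  have h6 : S ≤ 2 * (K + 1) * be := by linarith
  refine ⟨h6, hIs.trans ?_⟩
  have := mul_le_mul_of_nonneg_left h6 (by positivity : (0 : ℝ) ≤ 3 * ep)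
  refine this.trans (le_of_eq ?_)
  ring

end Vale.Agent.P262.H148
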