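import Mathlib

/-!
# P262, Milestone 2: the power flow lemma (real numbers)

`X k` is `max A D` at the block ends of one label, `G k` the counted gain in the block `k`, `E k` the
sum of all positive increments (losses, deeper prices, rotation inflow, stopping term), `D k` the
maximum of the dead mass over the block.
-/

set_option linter.all false

open Finset

namespace Vale.Agent.P262.H148

/-- potential -/
noncomputable def pot (th A x : ℝ) : ℝ := A ^ th * x ^ (1 - th)

lemma pot_nonneg {th A x : ℝ} (hA : 0 ≤ A) (hx : 0 ≤ x) : 0 ≤ pot th A x :=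
  mul_nonneg (Real.rpow_nonneg hA _) (Real.rpow_nonneg hx _)

lemma pot_mono {th A x y : ℝ} (hth1 : th ≤ 1) (hA : 0 ≤ A) (hx : 0 ≤ x) (hxy : x ≤ y) :
    pot th A x ≤ pot th A y :=
  mul_le_mul_of_nonneg_left (Real.rpow_le_rpow hx hxy (by linarith)) (Real.rpow_nonneg hA _)

/-- tangent inequality for `x ^ (1 - th)` -/
lemma rpow_tangent {th x y : ℝ} (hth : 0 ≤ th) (hth1 : th ≤ 1) (hx : 0 < x) (hy : 0 ≤ y) :
    y ^ (1 - th) ≤ x ^ (1 - th) + (1 - th) * x ^ (-th) * (y - x) := by
  have h := _root_.rpow_one_add_le_one_add_mul_self (s := y / x - 1) (p := 1 - th)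
    (by have : 0 ≤ y / x := div_nonneg hy hx.le
        linarith) (by linarith) (by linarith)
  have e1 : 1 + (y / x - 1) = y / x := by ring
  rw [e1, Real.div_rpow hy hx.le] at h
  have hxp : 0 < x ^ (1 - th) := Real.rpow_pos_of_pos hx _
  rw [div_le_iff₀ hxp] at h
  have e2 : x ^ (-th) = x ^ (1 - th) / x := by
    rw [show (-th : ℝ) = (1 - th) - 1 by ring, Real.rpow_sub_one hx.ne']
  rw [e2]
  refine h.trans (le_of_eq ?_)
  field_simp

/-- one block -/
lemma block {th A x y D G E : ℝ} (hth : 0 ≤ th) (hth1 : th ≤ 1) (hA : 0 < A) (hx : 0 < x)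
    (hy : 0 ≤ y) (hG : 0 ≤ G) (hE : 0 ≤ E) (hstep : y ≤ x - G + E) (hxD : x ≤ D) (hyD : y ≤ D)
    (hD : D ≤ 2 * (x + E)) :
    pot th A y + (1 - th) * ((A / D) ^ th * G) ≤ pot th A x + 6 * ((A / D) ^ th * E) := by
  have hDp : 0 < D := hx.trans_le hxD
  have hw : 0 ≤ (A / D) ^ th := Real.rpow_nonneg (div_nonneg hA.le hDp.le) _
  have hAth : 0 ≤ A ^ th := Real.rpow_nonneg hA.le _
  rcases le_total E x with hEx | hEx
  · -- D ≤ 4 x
    have hD4 : D ≤ 4 * x := by linarith
    have h1 := rpow_tangent hth hth1 hx hy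
    have h2 : pot th A y ≤ pot th A x + (1 - th) * (A / x) ^ th * (y - x) := by
      unfold pot
      have e : (A / x) ^ th = A ^ th * x ^ (-th) := by
        rw [Real.div_rpow hA.le hx.le, Real.rpow_neg hx.le, div_eq_mul_inv]
      rw [e]
      calc A ^ th * y ^ (1 - th) ≤ A ^ th * (x ^ (1 - th) + (1 - th) * x ^ (-th) * (y - x)) :=
            mul_le_mul_of_nonneg_left h1 hAth
        _ = _ := by ring
    have h3 : (A / D) ^ th ≤ (A / x) ^ th :=
      Real.rpow_le_rpow (div_nonneg hA.le hDp.le) (div_le_div_of_nonneg_left hA.le hx hxD) hth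
    have h4 : (A / x) ^ th ≤ 4 * (A / D) ^ th := by
      have h5 : A / x ≤ 4 * (A / D) := by
        rw [div_le_iff₀ hx]
        have : A / D * D = A := div_mul_cancel₀ _ hDp.ne'
        nlinarith [div_nonneg hA.le hDp.le]
      calc (A / x) ^ th ≤ (4 * (A / D)) ^ th :=
            Real.rpow_le_rpow (div_nonneg hA.le hx.le) h5 hth
        _ = 4 ^ th * (A / D) ^ th := Real.mul_rpow (by norm_num) (div_nonneg hA.le hDp.le)
        _ ≤ 4 * (A / D) ^ th := by
            refine mul_le_mul_of_nonneg_right ?_ hw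
            calc (4 : ℝ) ^ th ≤ 4 ^ (1 : ℝ) := Real.rpow_le_rpow_of_exponent_le (by norm_num) hth1
              _ = 4 := by norm_num
    have hv : 0 ≤ (A / x) ^ th := Real.rpow_nonneg (div_nonneg hA.le hx.le) _
    have h6 : (1 - th) * (A / x) ^ th * (y - x) ≤ (1 - th) * (A / x) ^ th * (E - G) :=
      mul_le_mul_of_nonneg_left (by linarith) (mul_nonneg (by linarith) hv)
    have h7 : (1 - th) * (A / x) ^ th * E ≤ 4 * ((A / D) ^ th * E) := by
      have : (1 - th) * (A / x) ^ th ≤ 4 * (A / D) ^ th := by nlinarith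
      nlinarith
    have h8 : (1 - th) * ((A / D) ^ th * G) ≤ (1 - th) * (A / x) ^ th * G := by
      have : (A / D) ^ th * G ≤ (A / x) ^ th * G := mul_le_mul_of_nonneg_right h3 hG
      nlinarith
    have h9 : 0 ≤ (A / D) ^ th * E := mul_nonneg hw hE
    nlinarith
  · -- D ≤ 4 E
    have hD4 : D ≤ 4 * E := by linarith
    have h1 : pot th A y ≤ (A / D) ^ th * D := by
      refine (pot_mono hth1 hA.le hy hyD).trans (le_of_eq ?_)
      unfold pot
      rw [Real.div_rpow hA.le hDp.le, Real.rpow_sub hDp, Real.rpow_one]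
      field_simp
    have h2 : (A / D) ^ th * D ≤ 4 * ((A / D) ^ th * E) := by nlinarith
    have h3 : G ≤ 2 * E := by linarith
    have h4 : (1 - th) * ((A / D) ^ th * G) ≤ 2 * ((A / D) ^ th * E) := by
      have : (A / D) ^ th * G ≤ (A / D) ^ th * (2 * E) := mul_le_mul_of_nonneg_left h3 hw
      have h5 : 0 ≤ (A / D) ^ th * G := mul_nonneg hw hG
      nlinarith
    have h5 : 0 ≤ pot th A x := pot_nonneg hA.le hx.le
    linarith

/-- **Power flow lemma.** -/
theorem power_flow {th A : ℝ} (hth : 0 ≤ th) (hth1 : th ≤ 1) (hA : 0 < A) {X D G E : ℕ → ℝ} {n : ℕ}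
    (hX : ∀ k ≤ n, 0 < X k) (hG : ∀ k < n, 0 ≤ G k) (hE : ∀ k < n, 0 ≤ E k)
    (hstep : ∀ k < n, X (k + 1) ≤ X k - G k + E k)
    (hXD : ∀ k < n, X k ≤ D k) (hXD' : ∀ k < n, X (k + 1) ≤ D k)
    (hD : ∀ k < n, D k ≤ 2 * (X k + E k)) :
    pot th A (X n) + (1 - th) * ∑ k ∈ range n, (A / D k) ^ th * G k ≤
      pot th A (X 0) + 6 * ∑ k ∈ range n, (A / D k) ^ th * E k := by
  induction n with
  | zero => simp
  | succ n ih =>
    have h1 := ih (fun k hk => hX k (by omega)) (fun k hk => hG k (by omega))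
      (fun k hk => hE k (by omega)) (fun k hk => hstep k (by omega)) (fun k hk => hXD k (by omega))
      (fun k hk => hXD' k (by omega)) (fun k hk => hD k (by omega))
    have h2 := block hth hth1 hA (hX n (by omega)) (hX (n + 1) le_rfl).le (hG n (by omega))
      (hE n (by omega)) (hstep n (by omega)) (hXD n (by omega)) (hXD' n (by omega))
      (hD n (by omega))
    rw [sum_range_succ, sum_range_succ]
    linarith

/-- the bracket: start by the dead mass, end by the alive mass -/
lemma bracket {th A Ds qe : ℝ} (hth : 0 ≤ th) (hth1 : th ≤ 1) (hA : 0 < A) (hA1 : A ≤ 1)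
    (hDs : 0 ≤ Ds) (hDs1 : Ds ≤ 1) (hq : 0 ≤ qe) (hq1 : qe ≤ 1) :
    pot th A (max A Ds) - pot th A (max A (1 - qe)) ≤
      2 * (A ^ th * min (Ds ^ (1 - th)) qe) := by
  have hAth : 0 < A ^ th := Real.rpow_pos_of_pos hA _
  have hDp : 0 ≤ Ds ^ (1 - th) := Real.rpow_nonneg hDs _
  have hmin : 0 ≤ min (Ds ^ (1 - th)) qe := le_min hDp hq
  rcases le_total Ds A with h | h
  · rw [max_eq_left h]
    have : pot th A A ≤ pot th A (max A (1 - qe)) := pot_mono hth1 hA.le hA.le (le_max_left _ _)
    have := mul_nonneg hAth.le hmin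
    linarith
  · rw [max_eq_right h]
    have h0 : 0 ≤ pot th A (max A (1 - qe)) := pot_nonneg hA.le (hA.le.trans (le_max_left _ _))
    rcases le_total (Ds ^ (1 - th)) qe with h1 | h1
    · rw [min_eq_left h1]
      unfold pot at *
      nlinarith
    · rw [min_eq_right h1]
      rcases le_total (1 / 2) qe with h2 | h2
      · have h3 : pot th A Ds ≤ A ^ th := by
          unfold pot
          have : Ds ^ (1 - th) ≤ 1 := Real.rpow_le_one hDs hDs1 (by linarith)
          nlinarith
        nlinarith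
      · -- q_e ≤ 1/2
        set y := max A (1 - qe) with hy
        have hy1 : 1 / 2 ≤ y := by rw [hy]; exact le_max_of_le_right (by linarith)
        have hyp : 0 < y := by linarith
        have hyq : 1 - y ≤ qe := by
          have : 1 - qe ≤ y := le_max_right _ _
          linarith
        have h3 := rpow_tangent (th := th) (x := y) (y := Ds) hth hth1 hyp hDs
        have h4 : y ^ (-th) ≤ 2 := by
          rw [Real.rpow_neg hyp.le]
          have : (1 / 2 : ℝ) ≤ y ^ th := by
            have hy2 : y ≤ 1 := max_le hA1 (by linarith)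
            calc (1 / 2 : ℝ) ≤ y := hy1
              _ = y ^ (1 : ℝ) := (Real.rpow_one y).symm
              _ ≤ y ^ th := Real.rpow_le_rpow_of_exponent_ge hyp hy2 hth1
          calc (y ^ th)⁻¹ ≤ (1 / 2 : ℝ)⁻¹ := inv_anti₀ (by norm_num) this
            _ = 2 := by norm_num
        have h5 : 0 ≤ y ^ (-th) := Real.rpow_nonneg hyp.le _
        have h6 : (1 - th) * y ^ (-th) * (Ds - y) ≤ 2 * qe := by
          rcases le_total Ds y with h7 | h7
          · have : (1 - th) * y ^ (-th) * (Ds - y) ≤ 0 :=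
              mul_nonpos_of_nonneg_of_nonpos (mul_nonneg (by linarith) h5) (by linarith)
            linarith
          · have h8 : Ds - y ≤ qe := by linarith
            have h9 : (1 - th) * y ^ (-th) ≤ 2 := by nlinarith
            calc (1 - th) * y ^ (-th) * (Ds - y) ≤ 2 * (Ds - y) :=
                  mul_le_mul_of_nonneg_right h9 (by linarith)
              _ ≤ 2 * qe := by linarith
        unfold pot
        nlinarith

end Vale.Agent.P262.H148
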