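import Vale.Agent.P262.H148.Life

/-!
# P262, milestone 2: the accounting at one point, all lives of one level

States `0, .., n - 1`; `lv` = first states of lives, `B` = first states of blocks (`lv ⊆ B`), `act` =
the label of the level is admitted (ancestors counted, not killed, not a leaf; constant on lives).
-/

namespace Vale.Agent.P262.H148

open Finset Vale.Agent.P262.H118

/-- sums over lives -/
lemma sum_lives {lv : Set ℕ} {n : ℕ} (h0 : 0 ∈ lv) {g G : ℕ → ℝ}
    (h : ∀ s e, Iv lv n s e → ∑ m ∈ Ico s e, g m ≤ ∑ m ∈ Ico s e, G m) :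
    ∑ m ∈ range n, g m ≤ ∑ m ∈ range n, G m := by
  rcases Nat.eq_zero_or_pos n with hn | hn
  · subst hn; simp
  · have key := tel_flat (B := lv) (s := 0) (e := n) (g := fun m => g m - G m) (Φ := fun _ => 0)
      h0 hn fun a b hiv _ => by
        have := h a b hiv
        rw [sum_sub_distrib]
        linarith
    rw [sum_sub_distrib, ← range_eq_Ico] at key
    linarith

section

variable {th Mc et : ℝ} {n : ℕ} {lv B : Set ℕ} {act om star : ℕ → Prop} {A D F Q h : ℕ → ℝ}

/-- hypotheses at one point -/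
structure PtH (th Mc : ℝ) (n : ℕ) (lv B : Set ℕ) (act om : ℕ → Prop) (A D F Q h : ℕ → ℝ) :
    Prop where
  zero : 0 ∈ lv
  sub : lv ⊆ B
  Ac : ∀ m, m + 1 < n → m + 1 ∉ lv → A (m + 1) = A m
  actc : ∀ m, m + 1 < n → m + 1 ∉ lv → (act (m + 1) ↔ act m)
  A0 : ∀ m, m < n → act m → 0 < A m
  MA : ∀ m, m < n → act m → Mc * A m ≤ 1 / 4
  life : ∀ s e, Iv lv n s e → act s → LifeH th (A s) Mc s e B om D F Q h

lemma PtH.con (H : PtH th Mc n lv B act om A D F Q h) {s e : ℕ} (hiv : Iv lv n s e) :
    ∀ m, s ≤ m → m < e → A m = A s ∧ (act m ↔ act s) := by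
  obtain ⟨h1, h2, h3, h4, h5⟩ := hiv
  intro m hm hme
  induction m, hm using Nat.le_induction with
  | base => exact ⟨rfl, Iff.rfl⟩
  | succ m hm ih =>
    have h6 := h5 (m + 1) (by omega) hme
    rw [H.Ac m (by omega) h6, H.actc m (by omega) h6]
    exact ih (by omega)

open Classical in
/-- restriction to a life of the inner moves -/
lemma PtH.inn_eq (H : PtH th Mc n lv B act om A D F Q h) {s e m : ℕ} (hiv : Iv lv n s e)
    (h2 : m < e) (f : ℕ → ℝ) : inn B n om f m = inn B e om f m := by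
  obtain ⟨g1, g2, g3, g4, g5⟩ := hiv
  unfold inn
  have : (om m ∧ m + 1 ∉ B ∧ m + 1 < n) ↔ (om m ∧ m + 1 ∉ B ∧ m + 1 < e) := by
    refine and_congr_right fun _ => and_congr_right fun hB => ?_
    constructor
    · intro h3
      by_contra hcon
      have h4 : m + 1 = e := by omega
      rcases g4 with h5 | h5
      · exact hB (H.sub (h4 ▸ h5))
      · omega
    · intro h3; omega
  simp only [this]

open Classical in
lemma PtH.lst_eq (H : PtH th Mc n lv B act om A D F Q h) {s e m : ℕ} (hiv : Iv lv n s e)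
    (h2 : m < e) (f : ℕ → ℝ) : lst B n om f m = lst B e om f m := by
  obtain ⟨g1, g2, g3, g4, g5⟩ := hiv
  unfold lst
  have : (om m ∧ (m + 1 ∈ B ∨ m + 1 = n)) ↔ (om m ∧ (m + 1 ∈ B ∨ m + 1 = e)) := by
    refine and_congr_right fun _ => ?_
    constructor
    · rintro (h3 | h3)
      · exact Or.inl h3
      · right; omega
    · rintro (h3 | h3)
      · exact Or.inl h3
      · rcases g4 with h5 | h5
        · exact Or.inl (H.sub (h3 ▸ h5))
        · right; omega
  simp only [this]

open Classical in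
/-- the indicator of the admitted labels in front of a function -/
noncomputable def ac (act : ℕ → Prop) (f : ℕ → ℝ) (m : ℕ) : ℝ := if act m then f m else 0

open Classical in
lemma PtH.sum_ac (H : PtH th Mc n lv B act om A D F Q h) {s e : ℕ} (hiv : Iv lv n s e)
    {f f' : ℕ → ℝ} (hf : ∀ m, s ≤ m → m < e → act s → f m = f' m) :
    ∑ m ∈ Ico s e, ac act f m = if act s then ∑ m ∈ Ico s e, f' m else 0 := by
  by_cases ha : act s
  · rw [if_pos ha]
    refine sum_congr rfl fun m hm => ?_
    rw [mem_Ico] at hm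
    unfold ac
    rw [if_pos (((H.con hiv) m hm.1 hm.2).2.2 ha), hf m hm.1 hm.2 ha]
  · rw [if_neg ha]
    refine sum_eq_zero fun m hm => ?_
    rw [mem_Ico] at hm
    unfold ac
    rw [if_neg fun h1 => ha (((H.con hiv) m hm.1 hm.2).2.1 h1)]

open Classical in
/-- first states of lives -/
noncomputable def flf (lv : Set ℕ) (f : ℕ → ℝ) (m : ℕ) : ℝ := if m ∈ lv then f m else 0

open Classical in
lemma sum_flf {s e : ℕ} (hiv : Iv lv n s e) (f : ℕ → ℝ) : ∑ m ∈ Ico s e, flf lv f m = f s := by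
  obtain ⟨h1, h2, h3, h4, h5⟩ := hiv
  rw [sum_eq_single s]
  · unfold flf; rw [if_pos h1]
  · intro m hm hma
    rw [mem_Ico] at hm
    unfold flf
    rw [if_neg (h5 m (by omega) hm.2)]
  · intro h6
    exact absurd (mem_Ico.2 ⟨le_rfl, h2⟩) h6

/-- the ends of the counted blocks -/
noncomputable def ends (B : Set ℕ) (n : ℕ) (om : ℕ → Prop) (c : ℕ → ℝ) (m : ℕ) : ℝ :=
  fst B om c m + lst B n om c m

/-- price of an end, with the cap of the state -/
noncomputable def cvA (th : ℝ) (A D h : ℕ → ℝ) (m : ℕ) : ℝ := 2 * (slope th (A m) (D m) * h m)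

/-- change of the potential at a star move -/
noncomputable def dPsi (th : ℝ) (A F : ℕ → ℝ) (m : ℕ) : ℝ :=
  Psi th (A m) (F m) - Psi th (A m) (F (m + 1))

open Classical in
/-- **(T1) at one point.**  `br s` bounds the bracket of the life starting at `s`. -/
theorem PtH.star_sum (H : PtH th Mc n lv B act om A D F Q h) (hth : 0 ≤ th) (hth1 : th ≤ 1 / 2)
    (hMc : 2 ≤ Mc) (het0 : 0 ≤ et) (het : 1 ≤ et * ((Mc / 2) ^ (1 - th) - 2)) {br : ℕ → ℝ}
    (hbr : ∀ s e, Iv lv n s e → act s →
      Psi th (A s) (max (A s) (D s)) - Psi th (A s) (max (A s) (D (e - 1))) ≤ br s) :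
    ∑ m ∈ range n, ac act (inn B n om fun m => if star m then dPsi th A F m else - Q m) m ≤
      ∑ m ∈ range n, ac act (flf lv br) m +
        (∑ m ∈ range n, ac act (ends B n om (cvA th A D h)) m +
          et * ∑ m ∈ range n, ac act (inn B n om Q) m) := by
  rw [mul_sum, ← sum_add_distrib, ← sum_add_distrib]
  refine sum_lives H.zero fun s e hiv => ?_
  rw [sum_add_distrib, sum_add_distrib, ← mul_sum]
  have hc := H.con hiv
  have e1 := H.sum_ac hiv (f := inn B n om fun m => if star m then dPsi th A F m else - Q m)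
    (f' := inn B e om fun m => if star m then Psi th (A s) (F m) - Psi th (A s) (F (m + 1))
      else - Q m) fun m h1 h2 _ => by
        rw [H.inn_eq hiv h2]
        unfold inn dPsi
        simp only [(hc m h1 h2).1]
  have e2 := H.sum_ac hiv (f := flf lv br) (f' := flf lv br) fun _ _ _ _ => rfl
  have e3 := H.sum_ac hiv (f := ends B n om (cvA th A D h))
    (f' := fun m => fst B om (cv th (A s) D h) m + lst B e om (cv th (A s) D h) m)
    fun m h1 h2 _ => by
      unfold ends
      rw [H.lst_eq hiv h2]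
      unfold fst lst cvA cv
      rw [(hc m h1 h2).1]
  have e4 := H.sum_ac hiv (f := inn B n om Q) (f' := inn B e om Q) fun m h1 h2 _ =>
    H.inn_eq hiv h2 Q
  rw [e1, e2, e3, e4, sum_flf hiv]
  by_cases ha : act s
  · rw [if_pos ha, if_pos ha, if_pos ha, if_pos ha]
    have hsn : s < n := lt_of_lt_of_le hiv.2.1 hiv.2.2.1
    have h1 := (H.life s e hiv ha).star_sum (star := star) hth hth1 (H.A0 s hsn ha) hMc
      (H.MA s hsn ha) het0 het
    have h2 := hbr s e hiv ha
    linarith
  · rw [if_neg ha, if_neg ha, if_neg ha, if_neg ha]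
    simp

open Classical in
/-- **(T2) at one point.** -/
theorem PtH.units (H : PtH th Mc n lv B act om A D F Q h) (hth : 0 ≤ th) (hth1 : th ≤ 1 / 2)
    (hMc : 2 ≤ Mc) (het0 : 0 ≤ et) (het : 1 ≤ et * ((Mc / 2) ^ (1 - th) - 2)) {K : ℝ}
    (hK : 0 ≤ K) {q u ent : ℕ → ℝ} (hq : ∀ s, s < n → 0 ≤ q s)
    (hu : ∀ s e, Iv lv n s e → act s → ∀ a b, Iv B e a b → s ≤ a → om a →
      u a ≤ K * ∑ m ∈ Ico a (b - 1), Q m ∨ (b = e ∧
        u a ≤ K * (A s ^ th * min ((max (A s) (D a)) ^ (1 - th)) (q s)) +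
          K * ∑ m ∈ Ico a (b - 1), Q m))
    (hent : ∀ s, s ∈ lv → s < n → act s →
      A s ^ th * min ((max (A s) (D s)) ^ (1 - th)) (q s) ≤ ent s) :
    ∑ m ∈ range n, ac act (fst B om u) m ≤ K * ∑ m ∈ range n, ac act (flf lv ent) m +
        K * (∑ m ∈ range n, ac act (ends B n om (cvA th A D h)) m +
          (2 + et) * ∑ m ∈ range n, ac act (inn B n om Q) m) := by
  rw [mul_sum, mul_sum, ← sum_add_distrib, mul_sum, ← sum_add_distrib]
  refine sum_lives H.zero fun s e hiv => ?_
  rw [sum_add_distrib, ← mul_sum, ← mul_sum, sum_add_distrib, ← mul_sum]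
  have hc := H.con hiv
  have e1 := H.sum_ac hiv (f := fst B om u) (f' := fst B om u) fun _ _ _ _ => rfl
  have e2 := H.sum_ac hiv (f := flf lv ent) (f' := flf lv ent) fun _ _ _ _ => rfl
  have e3 := H.sum_ac hiv (f := ends B n om (cvA th A D h))
    (f' := fun m => fst B om (cv th (A s) D h) m + lst B e om (cv th (A s) D h) m)
    fun m h1 h2 _ => by
      unfold ends
      rw [H.lst_eq hiv h2]
      unfold fst lst cvA cv
      rw [(hc m h1 h2).1]
  have e4 := H.sum_ac hiv (f := inn B n om Q) (f' := inn B e om Q) fun m h1 h2 _ =>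
    H.inn_eq hiv h2 Q
  rw [e1, e2, e3, e4, sum_flf hiv]
  by_cases ha : act s
  · rw [if_pos ha, if_pos ha, if_pos ha, if_pos ha]
    have hsn : s < n := lt_of_lt_of_le hiv.2.1 hiv.2.2.1
    have h1 := (H.life s e hiv ha).units hth hth1 (H.A0 s hsn ha) hMc
      (H.MA s hsn ha) het0 het hK (hq s hsn) (hu s e hiv ha)
    have h2 := mul_le_mul_of_nonneg_left (hent s hiv.1 hsn ha) hK
    linarith
  · rw [if_neg ha, if_neg ha, if_neg ha, if_neg ha]
    simp

end

end Vale.Agent.P262.H148
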