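import Vale.Agent.P262.M2.Cls
import Vale.Agent.P262.H148.Pt

/-!
# P262, milestone 2: the accounting at one point, instance on the system `S`

For a point `x` and a level `j` the label of level `j` at state `m` is read at the node `S.nd m x j`.
-/

set_option linter.all false

open MeasureTheory ProbabilityTheory Set
open scoped ENNReal RealInnerProductSpace
open Vale.Agent.P262.H118 (Iv st en K2 El2 paths)

namespace Vale.Agent.P262.M2.Sys

variable {E : Type*} [NormedAddCommGroup E] [InnerProductSpace ℝ E] [FiniteDimensional ℝ E]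
  [MeasurableSpace E] [BorelSpace E] {S : Sys E}

/-! ### nodes on the path of a point -/

lemma nd_succ_p (m : ℕ) (x : E) (j : ℕ) :
    S.nd m x (j + 1) = S.kl (S.nd m x j) m x :: S.nd m x j := rfl

lemma tm_lt_p {m : ℕ} (h : m ≤ S.mT) : S.mv.tm m < S.T := by
  refine S.mv.tm_lt_of_lt ?_
  have h1 := S.mv.n_strictMono S.hT
  unfold mT at h
  omega

/-- the windows of the labels of the higher levels are refined by the lives -/
lemma BB_sub_nd_p (m : ℕ) (x : E) {i j : ℕ} (h : i < j) :
    S.BB (S.nd m x i) m x ⊆ S.K.nw (S.nd m x j) := by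
  induction j, h using Nat.le_induction with
  | base => rw [nd_succ_p]; exact S.K.B_sub_nw _ _
  | succ j hj ih => rw [nd_succ_p]; exact ih.trans (S.K.nw_sub_nw _ _)

/-- the node is constant on its lives -/
lemma nd_same_p {j m k : ℕ} {x : E} (hm : S.mv.tm m < S.T)
    (h : S.Same (S.K.nw (S.nd m x j)) m k) : S.nd k x j = S.nd m x j := by
  induction j with
  | zero => rfl
  | succ j ih =>
    rw [nd_succ_p] at h
    have h1 : S.Same (S.BB (S.nd m x j) m x) m k :=
      h.mono (S.K.B_sub_nw _ _) (zero_mem_BB _ _ _) hm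
    have h2 : S.Same (S.K.nw (S.nd m x j)) m k :=
      h.mono (S.K.nw_sub_nw _ _) (S.K.zero_mem_nw _) hm
    rw [nd_succ_p, nd_succ_p, ih h2, kl_same h1 hm]

/-- the rule of the higher levels is constant on the lives -/
lemma OL_same_p {j m k : ℕ} {x : E} (hm : S.mv.tm m < S.T)
    (h : S.Same (S.K.nw (S.nd m x j)) m k) : x ∈ S.OL j k ↔ x ∈ S.OL j m := by
  have key : ∀ i, i < j → (x ∈ S.om (S.nd k x i) k ↔ x ∈ S.om (S.nd m x i) m) := by
    intro i hi
    have h1 : S.Same (S.BB (S.nd m x i) m x) m k :=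
      h.mono (BB_sub_nd_p m x hi) (zero_mem_BB _ _ _) hm
    have h2 : S.Same (S.K.nw (S.nd m x i)) m k :=
      h1.mono (nw_sub_BB _ _ _) (S.K.zero_mem_nw _) hm
    rw [nd_same_p hm h2]
    exact om_same h1 hm
  constructor
  · exact fun h1 i hi => (key i hi).1 (h1 i hi)
  · exact fun h1 i hi => (key i hi).2 (h1 i hi)

lemma nd_length_p (m : ℕ) (x : E) (j : ℕ) : (S.nd m x j).length = j := by
  induction j with
  | zero => rfl
  | succ j ih => rw [nd_succ_p, List.length_cons, ih]

lemma nd_mem_p {j : ℕ} (hj : j ≤ Module.finrank ℝ E) (m : ℕ) (x : E) :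
    S.nd m x j ∈ paths S.cm (Module.finrank ℝ E) := by
  rw [mem_G]
  refine ⟨by rw [nd_length_p]; exact hj, ?_⟩
  clear hj
  induction j with
  | zero => intro c hc; simp [nd, nb] at hc
  | succ j ih =>
    intro c hc
    rw [nd_succ_p, List.mem_cons] at hc
    rcases hc with rfl | hc
    · exact kl_le_cm _ _ _
    · exact ih c hc

/-! ### lives and blocks of the label of level `j` -/

variable (S) in
/-- first states of the lives of the label of level `j` -/
def lvP (j : ℕ) (x : E) : Set ℕ := {m | S.l0 (S.nd m x j) m = m}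

variable (S) in
/-- first states of its blocks -/
def BP (j : ℕ) (x : E) : Set ℕ := {m | S.bs (S.nd m x j) m x = m}

variable (S) in
/-- admitted: not a leaf, ancestors counted, not killed -/
def actP (j : ℕ) (x : E) (m : ℕ) : Prop :=
  x ∈ S.NL j m ∧ x ∈ S.OL j m ∧ x ∉ S.Z (S.nd m x j) m

variable (S) in
/-- counted -/
def omP (j : ℕ) (x : E) (m : ℕ) : Prop := x ∈ S.om (S.nd m x j) m

variable (S) in
noncomputable def AP (j : ℕ) (x : E) (m : ℕ) : ℝ := (S.A (S.nd m x j) m x).toReal
variable (S) in
noncomputable def DP (j : ℕ) (x : E) (m : ℕ) : ℝ := (S.De (S.nd m x j) m x).toReal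
variable (S) in
noncomputable def FP (j : ℕ) (x : E) (m : ℕ) : ℝ := (S.F (S.nd m x j) m x).toReal

variable {j : ℕ} {x : E}

lemma zero_mem_lvP : 0 ∈ S.lvP j x := by
  have : S.l0 (S.nd 0 x j) 0 ≤ 0 := S.mv.sS_le _ _
  exact Nat.le_zero.1 this

lemma lvP_sub_BP : S.lvP j x ⊆ S.BP j x := by
  intro m hm
  have h1 : S.mv.sS (S.K.nw (S.nd m x j)) m = m := hm
  have h2 := S.mv.sS_mono (nw_sub_BB (S.nd m x j) m x) (S.K.zero_mem_nw _) m
  have h3 := bs_le (S := S) (S.nd m x j) m x
  have h4 : S.bs (S.nd m x j) m x = m := by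
    unfold bs at h3 ⊢
    omega
  exact h4

/-- a state which is not the first one of its life -/
lemma same_of_not_lv {m : ℕ} (hm : m + 1 ≤ S.mT) (h : m + 1 ∉ S.lvP j x) :
    S.Same (S.K.nw (S.nd (m + 1) x j)) (m + 1) m ∧ S.nd m x j = S.nd (m + 1) x j := by
  have ht := tm_lt_p hm
  have h1 := S.mv.same_self (S.K.zero_mem_nw (S.nd (m + 1) x j)) ht
  have h2 : S.mv.sS (S.K.nw (S.nd (m + 1) x j)) (m + 1) ≠ m + 1 := h
  have h3 : S.Same (S.K.nw (S.nd (m + 1) x j)) (m + 1) m := ⟨by omega, by omega⟩
  exact ⟨h3, nd_same_p ht h3⟩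

/-- a state which is not the first one of its block -/
lemma same_of_not_B {m : ℕ} (hm : m + 1 ≤ S.mT) (h : m + 1 ∉ S.BP j x) :
    S.nd m x j = S.nd (m + 1) x j ∧
      S.Same (S.BB (S.nd (m + 1) x j) (m + 1) x) (m + 1) m := by
  have ht := tm_lt_p hm
  have h1 := S.mv.same_self (zero_mem_BB (S := S) (S.nd (m + 1) x j) (m + 1) x) ht
  have h2 : S.bs (S.nd (m + 1) x j) (m + 1) x ≠ m + 1 := h
  unfold bs at h2
  exact ⟨(same_of_not_lv hm fun h3 => h (lvP_sub_BP h3)).2, by omega, by omega⟩

/-- **a life.** -/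
lemma life_p {s e : ℕ} (h : Iv (S.lvP j x) (S.mT + 1) s e) :
    (∀ m, s ≤ m → m < e → S.nd m x j = S.nd s x j ∧ S.Same (S.K.nw (S.nd s x j)) s m) ∧
      e - 1 = S.l1 (S.nd s x j) s := by
  obtain ⟨h1, h2, h3, h4, h5⟩ := h
  have hts : S.mv.tm s < S.T := tm_lt_p (by omega)
  have hz := S.K.zero_mem_nw (S.nd s x j)
  have key : ∀ m, s ≤ m → m < e → S.nd m x j = S.nd s x j ∧
      S.Same (S.K.nw (S.nd s x j)) s m := by
    intro m hm hme
    induction m, hm using Nat.le_induction with
    | base => exact ⟨rfl, Same.refl hz hts⟩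
    | succ m hm ih =>
      obtain ⟨ih1, ih2⟩ := ih (by omega)
      obtain ⟨h6, h7⟩ := same_of_not_lv (S := S) (j := j) (x := x) (m := m) (by omega)
        (h5 (m + 1) (by omega) hme)
      have h8 : S.nd (m + 1) x j = S.nd s x j := h7.symm.trans ih1
      rw [h8] at h6
      exact ⟨h8, ih2.trans hz (h6.symm hz (tm_lt_p (by omega))) hts⟩
  refine ⟨key, ?_⟩
  have h6 := (key (e - 1) (by omega) (by omega)).2.2
  have h7 : S.mv.eS (S.K.nw (S.nd s x j)) s = S.l1 (S.nd s x j) s := rfl
  rw [h7] at h6
  by_contra hcon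
  have h8 : e ≤ S.l1 (S.nd s x j) s := by omega
  have h9 : S.l1 (S.nd s x j) s < S.mv.n S.T := S.mv.eS_lt hts
  have h10 : e ≤ S.mT := by unfold mT; omega
  have h11 : e ∈ S.lvP j x := by
    rcases h4 with h4 | h4
    · exact h4
    · omega
  have hl0 : S.mv.sS (S.K.nw (S.nd s x j)) s = s := h1
  have h12 : S.Same (S.K.nw (S.nd s x j)) s e := ⟨by omega, h8⟩
  have h13 := nd_same_p hts h12
  have h14 : S.mv.sS (S.K.nw (S.nd e x j)) e = e := h11
  rw [h13, (h12.eq hz hts).2.1, hl0] at h14
  omega

/-- **a block inside a life.** -/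
lemma block_p {s e a b : ℕ} (h : Iv (S.lvP j x) (S.mT + 1) s e) (hb : Iv (S.BP j x) e a b)
    (hsa : s ≤ a) :
    (∀ m, a ≤ m → m < b → S.Same (S.BB (S.nd s x j) a x) a m) ∧
      b - 1 = S.be (S.nd s x j) a x := by
  obtain ⟨hl, -⟩ := life_p h
  obtain ⟨b1, b2, b3, b4, b5⟩ := hb
  have hen : e ≤ S.mT + 1 := h.2.2.1
  set p := S.nd s x j with hp
  have hta : S.mv.tm a < S.T := tm_lt_p (by omega)
  have hz := zero_mem_BB (S := S) p a x
  have hpa : S.nd a x j = p := (hl a hsa (by omega)).1
  have key : ∀ m, a ≤ m → m < b → S.Same (S.BB p a x) a m := by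
    intro m hm hmb
    induction m, hm using Nat.le_induction with
    | base => exact Same.refl hz hta
    | succ m hm ih =>
      have ih2 := ih (by omega)
      obtain ⟨h6, h7⟩ := same_of_not_B (S := S) (j := j) (x := x) (m := m) (by omega)
        (b5 (m + 1) (by omega) hmb)
      have h8 : S.nd (m + 1) x j = p := (hl (m + 1) (by omega) (by omega)).1
      rw [h8] at h7
      have ht1 : S.mv.tm (m + 1) < S.T := tm_lt_p (by omega)
      have htm : S.mv.tm m < S.T := tm_lt_p (by omega)
      -- the partition is the same at `m + 1`, `m`, `a`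
      have e1 : S.BB p m x = S.BB p a x := BB_same ih2 hta
      have e2 : S.BB p m x = S.BB p (m + 1) x := BB_same h7 ht1
      have h9 : S.Same (S.BB p a x) (m + 1) m := by rw [← e1, e2]; exact h7
      exact ih2.trans hz (h9.symm hz ht1) hta
  refine ⟨key, ?_⟩
  have h6 := (key (b - 1) (by omega) (by omega)).2
  have h7 : S.mv.eS (S.BB p a x) a = S.be p a x := rfl
  rw [h7] at h6
  by_contra hcon
  have h8 : b ≤ S.be p a x := by omega
  have hba : S.mv.sS (S.BB p a x) a = a := by
    have : S.bs (S.nd a x j) a x = a := b1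
    rw [hpa] at this
    exact this
  have h12 : S.Same (S.BB p a x) a b := ⟨by omega, h8⟩
  -- the block ends inside the life
  have h13 : S.Same (S.K.nw p) a b := h12.mono (nw_sub_BB p a x) (S.K.zero_mem_nw p) hta
  have h14 : S.Same (S.K.nw p) s a := (hl a hsa (by omega)).2
  have hts : S.mv.tm s < S.T := tm_lt_p (by have := h.2.1; omega)
  have h15 : S.Same (S.K.nw p) s b := h14.trans (S.K.zero_mem_nw p) h13 hts
  have h16 : b ≤ S.l1 p s := h15.2
  have h17 := (life_p h).2
  have h18 : b < e := by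
    have : e - 1 = S.l1 p s := h17
    omega
  have h19 : b ∈ S.BP j x := by
    rcases b4 with h | h
    · exact h
    · omega
  have h20 : S.bs (S.nd b x j) b x = b := h19
  rw [(hl b (by omega) h18).1, bs_same h12 hta] at h20
  have h21 : S.bs p a x = a := hba
  omega

lemma active_or_re_p {m : ℕ} : (S.mv.IsStar m ∨ S.mv.IsRot m) ∨ S.mv.IsRe m := by
  rcases S.mv.cases_move m with h | h | h
  · exact Or.inl (Or.inl h)
  · exact Or.inl (Or.inr h)
  · exact Or.inr h

/-- **instance**: closeness `|F - D| ≤ A / 4` at labels which are not killed and not leaf labels, and a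
bound `Q` of the variation of the potential at the inner moves of the counted blocks. -/
theorem ptH' (hj : j ≤ Module.finrank ℝ E) {Q : ℕ → ℝ}
    (hC : ∀ m, m ≤ S.mT → S.actP j x m → |S.FP j x m - S.DP j x m| ≤ S.AP j x m / 4)
    (hQ : ∀ m, m < S.mT → S.actP j x m → S.omP j x m → m < S.be (S.nd m x j) m x →
      |H148.Psi S.th (S.AP j x m) (S.FP j x (m + 1)) -
        H148.Psi S.th (S.AP j x m) (S.FP j x m)| ≤ Q m) :
    H148.PtH S.th (S.M / 2) (S.mT + 1) (S.lvP j x) (S.BP j x) (S.actP j x) (S.omP j x)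
      (S.AP j x) (S.DP j x) (S.FP j x) Q (fun m => |S.FP j x m - S.DP j x m|) := by
  have hA0 : ∀ m, 0 < S.AP j x m := fun m => ENNReal.toReal_pos (S.A_pos _ _ _).ne' (S.A_ne_top _ _ _)
  have hb0 : 0 ≤ S.b0 := S.hA0.le.trans S.hAb
  have hAb : ∀ m, S.actP j x m → S.AP j x m ≤ S.b0 := fun m hm =>
    ENNReal.toReal_le_of_le_ofReal hb0 (S.A_le_of_not_Z hm.2.2)
  have hMA : ∀ m, S.actP j x m → S.M / 2 * S.AP j x m ≤ 1 / 4 := fun m hm => by
    have h1 := hAb m hm
    have h2 := S.hMb
    have h3 := S.hM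
    have h4 : S.M / 2 * S.AP j x m ≤ S.M / 2 * S.b0 := mul_le_mul_of_nonneg_left h1 (by linarith)
    nlinarith
  have hA8 : ∀ m, S.actP j x m → S.AP j x m ≤ 1 / 8 := fun m hm => by
    have h1 := hAb m hm
    have h2 := S.hMb
    have h3 := S.hM
    nlinarith
  refine ⟨zero_mem_lvP, lvP_sub_BP, ?_, ?_, fun m _ _ => hA0 m, fun m _ hm => hMA m hm, ?_⟩
  · -- the cap is constant on lives
    intro m hm hn
    obtain ⟨h1, h2⟩ := same_of_not_lv (S := S) (j := j) (x := x) (by omega) hn
    unfold AP
    rw [h2, h1.A subset_rfl (tm_lt_p (by omega))]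
  · -- admitted labels
    intro m hm hn
    obtain ⟨h1, h2⟩ := same_of_not_lv (S := S) (j := j) (x := x) (by omega) hn
    have ht : S.mv.tm (m + 1) < S.T := tm_lt_p (by omega)
    unfold actP
    rw [OL_same_p ht h1, h2, h1.Z subset_rfl ht]
    have e1 : x ∈ S.NL j (m + 1) ↔ x ∈ S.NL j m := by
      unfold NL
      simp only [mem_setOf_eq]
      rw [h2, h1.leaf subset_rfl ht]
    rw [e1]
  · -- a life
    intro s e hiv hact
    obtain ⟨hl, hle⟩ := life_p hiv
    have hen : e ≤ S.mT + 1 := hiv.2.2.1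
    have hse := hiv.2.1
    have hts : S.mv.tm s < S.T := tm_lt_p (by omega)
    have hactm : ∀ m, s ≤ m → m < e → S.actP j x m := by
      intro m h1 h2
      obtain ⟨h3, h4⟩ := hl m h1 h2
      obtain ⟨a1, a2, a3⟩ := hact
      refine ⟨?_, (OL_same_p hts h4).2 a2, ?_⟩
      · unfold NL at a1 ⊢
        simp only [mem_setOf_eq] at a1 ⊢
        rw [h3, h4.leaf subset_rfl hts]
        exact a1
      · rw [h3, h4.Z subset_rfl hts]; exact a3
    have hAm : ∀ m, s ≤ m → m < e → S.AP j x m = S.AP j x s := by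
      intro m h1 h2
      obtain ⟨h3, h4⟩ := hl m h1 h2
      unfold AP
      rw [h3, h4.A subset_rfl hts]
    set p := S.nd s x j with hp
    refine ⟨lvP_sub_BP hiv.1, hse, ?_, ?_, ?_, ?_⟩
    · -- continuity of `D`
      intro m h1 h2 h3
      obtain ⟨h4, h5⟩ := hl m h1 (by omega)
      obtain ⟨h6, h7⟩ := hl (m + 1) (by omega) h2
      have htm : S.mv.tm m < S.T := tm_lt_p (by omega)
      have hbs : S.bs p (m + 1) x = m + 1 := by
        have : S.bs (S.nd (m + 1) x j) (m + 1) x = m + 1 := h3
        rwa [h6] at this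
      rcases active_or_re_p (S := S) (m := m) with hac | hre
      · exfalso
        have h8 := Same.active (zero_mem_BB (S := S) p m x) hac htm
        rw [bs_same h8 htm] at hbs
        have := bs_le (S := S) p m x
        omega
      · have htm1 : S.mv.tm m + 1 < S.T := by
          have := tm_lt_p (S := S) (m := m + 1) (by omega)
          rwa [S.mv.tm_succ_re hre] at this
        have hn : S.mv.tm m + 1 ∉ S.K.nw p := by
          intro h8
          have h9 := (S.mv.re_end (S.K.zero_mem_nw p) hre htm1 h8).2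
          have h10 : m + 1 ∈ S.lvP j x := by
            change S.mv.sS (S.K.nw (S.nd (m + 1) x j)) (m + 1) = m + 1
            rw [h6]; exact h9
          exact hiv.2.2.2.2 (m + 1) (by omega) h2 h10
        have hX := S.X_re hre htm1 (nd_mem_p hj s x) (by rw [← hp]; exact hn)
        have hW : S.W p (m + 1) = S.W p m := by
          rw [h7.W subset_rfl hts, h5.W subset_rfl hts]
        unfold DP De
        rw [h6, h4, hW]
        rw [← hp] at hX
        rw [hX]
    · -- the rule
      intro m h1 h2 h3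
      obtain ⟨h4, h5⟩ := same_of_not_B (S := S) (j := j) (x := x) (m := m) (by omega) h3
      unfold omP
      rw [h4]
      exact (om_same h5 (tm_lt_p (by omega))).symm
    · -- not counted
      intro a b hab hsa hno
      obtain ⟨hb1, hb2⟩ := block_p hiv hab hsa
      have hae : a < e := lt_of_lt_of_le hab.2.1 hab.2.2.1
      have hpa : S.nd a x j = p := (hl a hsa hae).1
      have hna : x ∉ S.om p a := by
        have : ¬ x ∈ S.om (S.nd a x j) a := hno
        rwa [hpa] at this
      have hZ : x ∉ S.Z p a := by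
        have := (hactm a hsa hae).2.2
        rwa [hpa] at this
      have h8 := (not_om hZ hna).1
      have hbe : b - 1 < e := by have := hab.2.1; have := hab.2.2.1; omega
      have hbb : S.nd (b - 1) x j = p := (hl (b - 1) (by have := hab.2.1; omega) hbe).1
      unfold DP
      rw [hbb]
      have h9 : S.AP j x s = (S.A p a x).toReal := by
        rw [← hAm a hsa hae]; unfold AP; rw [hpa]
      rw [h9]
      rw [← hp] at hb2
      rw [hb2]
      exact ENNReal.toReal_mono (S.A_ne_top _ _ _) h8.le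
    · -- counted blocks
      intro a b hab hsa hom
      obtain ⟨hb1, hb2⟩ := block_p hiv hab hsa
      rw [← hp] at hb1 hb2
      have hae : a < e := lt_of_lt_of_le hab.2.1 hab.2.2.1
      have hbe : b ≤ e := hab.2.2.1
      have hlt := hab.2.1
      have hta : S.mv.tm a < S.T := tm_lt_p (by omega)
      have hpa : S.nd a x j = p := (hl a hsa hae).1
      have hpm : ∀ m, a ≤ m → m < b → S.nd m x j = p := fun m h1 h2 =>
        (hl m (by omega) (by omega)).1
      have homa : x ∈ S.om p a := by
        have : x ∈ S.om (S.nd a x j) a := hom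
        rwa [hpa] at this
      have hAa : S.AP j x s = (S.A p a x).toReal := by
        rw [← hAm a hsa hae]; unfold AP; rw [hpa]
      refine ⟨fun m _ _ => ENNReal.toReal_nonneg, fun m _ _ => ENNReal.toReal_nonneg,
        fun m _ _ => le_rfl, ?_, ?_, ?_⟩
      · intro m h1 h2
        rw [← hAm m (by omega) (by omega)]
        exact hC m (by omega) (hactm m (by omega) (by omega))
      · intro m h1 h2
        have hm := hactm m (by omega) (by omega)
        rw [← hAm m (by omega) (by omega)]
        refine hQ m (by omega) hm ?_ ?_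
        · change x ∈ S.om (S.nd m x j) m
          rw [hpm m h1 (by omega)]
          exact (om_same (hb1 m h1 (by omega)) hta).2 homa
        · rw [hpm m h1 (by omega), be_same (hb1 m h1 (by omega)) hta, ← hb2]
          omega
      · -- the rule in real numbers
        rcases homa.2 with h1 | h1
        · left
          unfold DP
          rw [hpm (b - 1) (by omega) (by omega), hAa, hb2]
          exact ENNReal.toReal_mono (ne_top_of_le_ne_top ENNReal.one_ne_top (S.De_le_one _ _ _)) h1
        · right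
          obtain ⟨k, hk1, hk2⟩ := exists_Dw (S := S) p (S.kl p a x) hta x
          have hk1' : S.Same (S.BB p a x) a k := hk1
          have hDb : S.Dc p k x = S.Db p a x := hk2
          have hba : S.bs p a x = a := by
            have : S.bs (S.nd a x j) a x = a := hab.1
            rwa [hpa] at this
          have hka : a ≤ k := by rw [← hba]; exact hk1'.1
          have hkb : k < b := by
            have h2 : k ≤ S.be p a x := hk1'.2
            omega
          have hMk : ENNReal.ofReal S.M * S.A p a x ≤ S.Dc p k x := by rw [hDb]; exact h1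
          have hM0 : 0 ≤ S.M := by linarith [S.hM]
          have hreal : S.M * (S.A p a x).toReal ≤ (S.Dc p k x).toReal := by
            have := ENNReal.toReal_mono
              (ne_top_of_le_ne_top ENNReal.one_ne_top (S.Dc_le_one p k x)) hMk
            rwa [ENNReal.toReal_mul, ENNReal.toReal_ofReal hM0] at this
          have hfin : ∀ k, S.De p k x ≠ ⊤ := fun k =>
            ne_top_of_le_ne_top ENNReal.one_ne_top (S.De_le_one _ _ _)
          have hAn : 0 ≤ (S.A p a x).toReal := ENNReal.toReal_nonneg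
          rcases active_or_re_p (S := S) (m := k) with hac | hre
          · have h2 : (S.Dc p k x).toReal ≤ (S.De p k x).toReal + (S.De p (k + 1) x).toReal := by
              rw [← ENNReal.toReal_add (hfin k) (hfin (k + 1))]
              exact ENNReal.toReal_mono (ENNReal.add_ne_top.2 ⟨hfin k, hfin (k + 1)⟩)
                (S.Dc_le_De_add_De hac x)
            have htk : S.mv.tm k < S.T := hk1'.lt hta
            have h3 : k + 1 ≤ S.be p a x := by
              have h4 := S.mv.active_inside (zero_mem_BB (S := S) p k x) hac htk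
              have h5 : S.be p k x = S.be p a x := be_same hk1' hta
              have h6 : k < S.be p k x := h4.1
              omega
            rcases le_total (S.M / 2 * (S.A p a x).toReal) (S.De p k x).toReal with h4 | h4
            · refine ⟨k, hka, hkb, ?_⟩
              unfold DP
              rw [hpm k hka hkb, hAa]
              exact h4
            · refine ⟨k + 1, by omega, by omega, ?_⟩
              unfold DP
              rw [hpm (k + 1) (by omega) (by omega), hAa]
              linarith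
          · refine ⟨k, hka, hkb, ?_⟩
            unfold DP
            rw [hpm k hka hkb, hAa]
            rw [S.Dc_re hre] at hreal
            nlinarith

/-- the cap of an admitted label -/
lemma AP_pos_p (m : ℕ) : 0 < S.AP j x m :=
  ENNReal.toReal_pos (S.A_pos _ _ _).ne' (S.A_ne_top _ _ _)

lemma AP_le_p {m : ℕ} (hm : S.actP j x m) : S.AP j x m ≤ 1 / 8 := by
  have hb0 : 0 ≤ S.b0 := S.hA0.le.trans S.hAb
  have h1 : S.AP j x m ≤ S.b0 := ENNReal.toReal_le_of_le_ofReal hb0 (S.A_le_of_not_Z hm.2.2)
  have h2 := S.hMb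
  have h3 := S.hM
  nlinarith

/-- the same with the slope at the mass before the move -/
theorem ptH (hj : j ≤ Module.finrank ℝ E) (hth1 : S.th ≤ 1 / 2) {Q : ℕ → ℝ}
    (hC : ∀ m, m ≤ S.mT → S.actP j x m → |S.FP j x m - S.DP j x m| ≤ S.AP j x m / 4)
    (hQ : ∀ m, m < S.mT → S.actP j x m → S.omP j x m → m < S.be (S.nd m x j) m x →
      2 * (H148.slope S.th (S.AP j x m) (S.FP j x m) * |S.FP j x (m + 1) - S.FP j x m|) ≤ Q m) :
    H148.PtH S.th (S.M / 2) (S.mT + 1) (S.lvP j x) (S.BP j x) (S.actP j x) (S.omP j x)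
      (S.AP j x) (S.DP j x) (S.FP j x) Q (fun m => |S.FP j x m - S.DP j x m|) :=
  ptH' hj hC fun m h1 h2 h3 h4 => (H148.abs_Psi_le S.hth.le hth1 (AP_pos_p m) (AP_le_p h2)
    ENNReal.toReal_nonneg).trans (hQ m h1 h2 h3 h4)

/-- the same with the slope at the larger mass -/
theorem ptH_max (hj : j ≤ Module.finrank ℝ E) (hth1 : S.th ≤ 1 / 2) {Q : ℕ → ℝ}
    (hC : ∀ m, m ≤ S.mT → S.actP j x m → |S.FP j x m - S.DP j x m| ≤ S.AP j x m / 4)
    (hQ : ∀ m, m < S.mT → S.actP j x m → S.omP j x m → m < S.be (S.nd m x j) m x →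
      2 * (H148.slope S.th (S.AP j x m) (max (S.FP j x m) (S.FP j x (m + 1))) *
        |S.FP j x (m + 1) - S.FP j x m|) ≤ Q m) :
    H148.PtH S.th (S.M / 2) (S.mT + 1) (S.lvP j x) (S.BP j x) (S.actP j x) (S.omP j x)
      (S.AP j x) (S.DP j x) (S.FP j x) Q (fun m => |S.FP j x m - S.DP j x m|) :=
  ptH' hj hC fun m h1 h2 h3 h4 => (H148.abs_Psi_le_max S.hth.le hth1 (AP_pos_p m) (AP_le_p h2)
    ENNReal.toReal_nonneg ENNReal.toReal_nonneg).trans (hQ m h1 h2 h3 h4)

end Vale.Agent.P262.M2.Sys
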